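import Vale.Agent.P193.W4.Interface

/-!
P193, module W4 A, minimality: below a dead digit on every counter axis the state of a tile is
determined by the digits alone.
-/

namespace Vale.Agent.P193.W4

variable {k : ℕ} {em : ℕ → Option (List (Full k))}

/-- Two states which may differ only in the folds not touching an axis in `D`. -/
structure St.Synced (D : Fin 3 → Prop) (s s' : St k) : Prop where
  wasH : s.flags.wasH = s'.flags.wasH
  wasP : s.flags.wasP = s'.flags.wasP
  pair : ∀ i, D i ∨ D (i + 1) → s.flags.eq i = s'.flags.eq i ∧ s.flags.peq i = s'.flags.peq i ∧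
    s.flags.rel i = s'.flags.rel i ∧ s.flags.prel i = s'.flags.prel i
  br : D 0 ∨ D 1 → s.flags.br = s'.flags.br
  word : D 2 → s.word = s'.word
  hit : D 2 → s.hit = s'.hit

/-- One step syncs the axes with dead digits. -/
theorem St.synced_dead (n : ℕ) (s s' : St k) (z : Fin 3 → Option (Mid k)) :
    St.Synced (fun i => z i = none) (s.step em n z) (s'.step em n z) where
  wasH := rfl
  wasP := rfl
  pair i h := by
    rcases h with h | h
    · simp [St.step, Flags.step, h]
    · rcases hz : z i with _ | m
      · simp [St.step, Flags.step, hz]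
      · cases m <;> simp [St.step, Flags.step, hz, h]
  br h := by
    funext t
    rcases h with h | h
    · simp [St.step, Flags.step, h]
    · rcases hz : z 0 with _ | m
      · simp [St.step, Flags.step, hz]
      · cases m <;> simp [St.step, Flags.step, hz, h]
  word h := by simp [St.step, wordStep, h]
  hit h := by simp [St.step, matchStep, h]

/-- Steps keep what is synced and sync the axes with dead digits. -/
theorem St.Synced.step {D : Fin 3 → Prop} {s s' : St k} (h : St.Synced D s s') (n : ℕ)
    (z : Fin 3 → Option (Mid k)) :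
    St.Synced (fun i => D i ∨ z i = none) (s.step em n z) (s'.step em n z) where
  wasH := rfl
  wasP := rfl
  pair i hi := by
    have h0 := St.synced_dead (em := em) n s s' z
    rcases hi with (hi | hi) | (hi | hi)
    · obtain ⟨e1, e2, e3, e4⟩ := h.pair i (Or.inl hi)
      simp [St.step, Flags.step, e1, e2, e3, e4, h.wasH, h.wasP]
    · exact h0.pair i (Or.inl hi)
    · obtain ⟨e1, e2, e3, e4⟩ := h.pair i (Or.inr hi)
      simp [St.step, Flags.step, e1, e2, e3, e4, h.wasH, h.wasP]
    · exact h0.pair i (Or.inr hi)
  br hi := by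
    have h0 := St.synced_dead (em := em) n s s' z
    rcases hi with (hi | hi) | (hi | hi)
    · simp [St.step, Flags.step, h.br (Or.inl hi)]
    · exact h0.br (Or.inl hi)
    · simp [St.step, Flags.step, h.br (Or.inr hi)]
    · exact h0.br (Or.inr hi)
  word hi := by
    rcases hi with hi | hi
    · simp [St.step, h.word hi]
    · exact (St.synced_dead n s s' z).word hi
  hit hi := by
    rcases hi with hi | hi
    · simp [St.step, h.hit hi, h.word hi]
    · exact (St.synced_dead n s s' z).hit hi

theorem St.Synced.eq {D : Fin 3 → Prop} {s s' : St k} (h : St.Synced D s s') (hD : ∀ i, D i) :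
    s = s' := by
  obtain ⟨⟨e1, e2, e3, e4, e5, e6, e7⟩, w, t⟩ := s
  obtain ⟨⟨f1, f2, f3, f4, f5, f6, f7⟩, w', t'⟩ := s'
  have hp := fun i => h.pair i (Or.inl (hD i))
  simp only at hp
  obtain rfl : e1 = f1 := funext fun i => (hp i).1
  obtain rfl : e2 = f2 := funext fun i => (hp i).2.1
  obtain rfl : e3 = f3 := h.br (Or.inl (hD 0))
  obtain rfl : e4 = f4 := h.wasH
  obtain rfl : e5 = f5 := h.wasP
  obtain rfl : e6 = f6 := funext fun i => (hp i).2.2.1
  obtain rfl : e7 = f7 := funext fun i => (hp i).2.2.2
  obtain rfl : w = w' := h.word (hD 2)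
  obtain rfl : t = t' := h.hit (hD 2)
  rfl

namespace Tower

variable (T : Tower k em)

/-- The state of the tile above a cell comes from the one above it and its digit. -/
theorem st_tile (v : Fin 3 → ℤ) (n : ℕ) :
    T.st n (T.tile v n) =
      (T.st (n + 1) (T.tile v (n + 1))).step em n fun i => sym (T.digit v n i) :=
  T.step n (T.tile v n)

/-- Below the levels `n, …, n + d` the axes with a dead digit there are synced. -/
theorem synced_span (T' : Tower k em) (v v' : Fin 3 → ℤ) : ∀ (d n : ℕ),
    (∀ m, n ≤ m → m ≤ n + d → T.digit v m = T'.digit v' m) →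
    St.Synced (fun i => ∃ m, n ≤ m ∧ m ≤ n + d ∧ sym (T.digit v m i) = none)
      (T.st n (T.tile v n)) (T'.st n (T'.tile v' n))
  | 0, n, h => by
    rw [T.st_tile, T'.st_tile, ← h n le_rfl le_rfl]
    have h0 := St.synced_dead (em := em) n (T.st (n + 1) (T.tile v (n + 1)))
      (T'.st (n + 1) (T'.tile v' (n + 1))) fun i => sym (T.digit v n i)
    have e : (fun i => ∃ m, n ≤ m ∧ m ≤ n + 0 ∧ sym (T.digit v m i) = none)
        = fun i => sym (T.digit v n i) = none := by
      funext i
      refine propext ⟨?_, fun hi => ⟨n, le_rfl, le_rfl, hi⟩⟩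
      rintro ⟨m, h1, h2, h3⟩
      rwa [show m = n by omega] at h3
    rw [e]
    exact h0
  | d + 1, n, h => by
    have ih := synced_span T' v v' d (n + 1) fun m h1 h2 => h m (by omega) (by omega)
    rw [T.st_tile, T'.st_tile, ← h n le_rfl (by omega)]
    have h0 := ih.step (em := em) n fun i => sym (T.digit v n i)
    have e : (fun i => ∃ m, n ≤ m ∧ m ≤ n + (d + 1) ∧ sym (T.digit v m i) = none)
        = fun i => (∃ m, n + 1 ≤ m ∧ m ≤ n + 1 + d ∧ sym (T.digit v m i) = none) ∨
          sym (T.digit v n i) = none := by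
      funext i
      refine propext ⟨?_, ?_⟩
      · rintro ⟨m, h1, h2, h3⟩
        rcases Nat.eq_or_lt_of_le h1 with rfl | h1'
        · exact Or.inr h3
        · exact Or.inl ⟨m, h1', by omega, h3⟩
      · rintro (⟨m, h1, h2, h3⟩ | h3)
        · exact ⟨m, by omega, by omega, h3⟩
        · exact ⟨n, le_rfl, by omega, h3⟩
    rw [e]
    exact h0

/-- Tiles with the same digits up to a dead one on every axis have the same state. -/
theorem st_eq_of_dead (T' : Tower k em) (v v' : Fin 3 → ℤ) (n M : ℕ)
    (hd : ∀ i, ∃ m, n ≤ m ∧ m ≤ M ∧ sym (T.digit v m i) = none)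
    (h : ∀ m, n ≤ m → m ≤ M → T.digit v m = T'.digit v' m) :
    T.st n (T.tile v n) = T'.st n (T'.tile v' n) := by
  have hnM : n ≤ M := by
    obtain ⟨m, h1, h2, -⟩ := hd 0
    omega
  obtain ⟨d, rfl⟩ := Nat.exists_eq_add_of_le hnM
  exact (T.synced_span T' v v' d n h).eq hd

/-- At a closed cell there is a level below which all folds are determined by the digits. -/
theorem Closed.exists_level {T : Tower k em} {v : Fin 3 → ℤ} (h : T.Closed v) :
    ∃ M, ∀ i, ∃ m, m ≤ M ∧ sym (T.digit v m i) = none := by
  choose f hf using h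
  exact ⟨max (f 0) (max (f 1) (f 2)), fun i => ⟨f i, by fin_cases i <;> simp, hf i⟩⟩

end Tower

end Vale.Agent.P193.W4
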