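import Vale.Agent.P193.W4.Minimal.Align

/-!
P193, module W4 A, minimality: approximation and recurrence follow from moves inside the plane at
fixed states of the counters.
-/

namespace Vale.Agent.P193.W4

open BH

variable {k : ℕ} {em : ℕ → Option (List (Full k))}

namespace Tower

variable (T T' : Tower k em)

/-- The same digits at one cell give the same shifts. -/
theorem off_tile_eq {M : ℕ} (h : ∀ v m, m < M → T.digit v m = T'.digit v m) :
    ∀ n, n ≤ M → T.off n = T'.off n ∧ ∀ v, T.tile v n = T'.tile v n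
  | 0, _ => ⟨rfl, fun _ => rfl⟩
  | n + 1, hn => by
    obtain ⟨ho, ht⟩ := off_tile_eq h n (by omega)
    have hs : T.shift n = T'.shift n := funext fun i => by
      have e := congrArg (fun d => ((d i).val : ℤ)) (h 0 n (by omega))
      have hb : (0 : ℤ) < (base k : ℤ) := by exact_mod_cast base_nat_pos
      simp only [digit] at e
      rw [Int.toNat_of_nonneg (Int.emod_nonneg _ hb.ne'),
        Int.toNat_of_nonneg (Int.emod_nonneg _ hb.ne'), ← ht 0] at e
      have e' := Int.ModEq.add_left_cancel' _ e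
      rw [Int.ModEq, Int.emod_eq_of_lt (Int.natCast_nonneg _) (by exact_mod_cast (T.shift n i).isLt),
        Int.emod_eq_of_lt (Int.natCast_nonneg _) (by exact_mod_cast (T'.shift n i).isLt)] at e'
      exact Fin.ext (Int.ofNat_inj.1 e')
    constructor
    · funext i; simp only [off, ho, hs]
    · intro v; funext i; simp only [tile, ht v, hs]

/-- Every tile lies above some cell. -/
theorem exists_tile_cell (n : ℕ) (t : Fin 3 → ℤ) : ∃ v, T.tile v n = t := by
  refine ⟨fun i => t i * (base k : ℤ) ^ n - T.off n i, funext fun i => ?_⟩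
  rw [T.tile_eq, sub_add_cancel, Int.mul_ediv_cancel _]
  have hb : (0 : ℤ) < (base k : ℤ) := by exact_mod_cast base_nat_pos
  exact pow_ne_zero _ hb.ne'

/-- Towers with the same digits up to a high level have the same state at a given tile. -/
theorem exists_st_bound (hT : T.Reset) (n : ℕ) (t : Fin 3 → ℤ) : ∃ M₁, ∀ T' : Tower k em,
    (∀ v m, m < M₁ → T'.digit v m = T.digit v m) → T'.st n t = T.st n t := by
  obtain ⟨v, hv⟩ := T.exists_tile_cell n t
  choose f hf using fun i => hT v i n
  refine ⟨max (f 0) (max (f 1) (f 2)) + 1, fun T' h => ?_⟩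
  have hM : ∀ i, f i ≤ max (f 0) (max (f 1) (f 2)) := fun i => by fin_cases i <;> simp
  have hn : n ≤ max (f 0) (max (f 1) (f 2)) := ((hf 0).1).trans (hM 0)
  have ht : T'.tile v n = t :=
    ((T'.off_tile_eq T h n (by omega)).2 v).trans hv
  have e := T.st_eq_of_dead T' v v n (max (f 0) (max (f 1) (f 2)))
    (fun i => ⟨f i, (hf i).1, hM i, (hf i).2⟩) fun m _ hm => (h v m (by omega)).symm
  rw [hv, ht] at e
  exact e.symm

end Tower

/-! ### The reduction -/

variable {S : SFT Lat} (tower : S.X → Tower k em)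

/-- A point agrees on a finite set with a translate in the plane of any point with the same digits
up to a high level and the same states there. -/
def PlaneMove : Prop :=
  ∀ (x : S.X) (U : Finset Lat), ∃ (U₁ : Finset Lat) (N₀ : ℕ), U ⊆ U₁ ∧ ∀ N, N₀ ≤ N → ∀ y : S.X,
    (∀ γ ∈ U₁, ∀ m, m ≤ N + 1 → (tower y).digit (Multiplicative.toAdd γ).1 m =
      (tower x).digit (Multiplicative.toAdd γ).1 m) →
    (∀ γ ∈ U₁, ∀ d : Fin 3 → Bool,
      (tower y).st (N + 1)
          (fun i => (tower y).tile (Multiplicative.toAdd γ).1 (N + 1) i - if d i then 1 else 0) =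
        (tower x).st (N + 1)
          fun i => (tower x).tile (Multiplicative.toAdd γ).1 (N + 1) i - if d i then 1 else 0) →
    ∃ w : Fin 2 → ℤ, S.AgreeOn U (S.act (Multiplicative.ofAdd ((0 : Fin 3 → ℤ), w)) y) x

/-- Digits are read from finitely many cells. -/
def DigitLocal : Prop :=
  ∀ (v : V) (n : ℕ), ∃ U : Finset Lat, ∀ x x' : S.X, S.AgreeOn U x x' →
    ∀ m, m ≤ n → (tower x).digit v.1 m = (tower x').digit v.1 m

/-- Digits move with the points. -/
def DigitAct : Prop :=
  ∀ (x : S.X) (w v : V) (n : ℕ),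
    (tower (S.act (Multiplicative.ofAdd w) x)).digit v.1 n = (tower x).digit (v - w).1 n

variable {tower}

theorem exists_translate (hA : DigitAct tower) (T : Tower k em) (y : S.X) (M : ℕ) :
    ∃ z : V, ∀ v m, m < M → (tower (S.act (Multiplicative.ofAdd z) y)).digit v m = T.digit v m := by
  obtain ⟨δ, hδ⟩ := (tower y).exists_align T M
  refine ⟨(-δ, 0), fun v m hm => ?_⟩
  have := hA y (-δ, 0) (v, 0) m
  simpa [Prod.fst_sub, hδ v m hm] using this

/-- The states of finitely many tiles are reproduced by aligning the digits. -/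
theorem exists_bound (T : Tower k em) (hT : T.Reset) (n : ℕ) (U : Finset Lat) :
    ∃ M₁, n ≤ M₁ ∧ ∀ T' : Tower k em, (∀ v m, m < M₁ → T'.digit v m = T.digit v m) →
      ∀ γ ∈ U, ∀ d : Fin 3 → Bool,
        T'.st n (fun i => T'.tile (Multiplicative.toAdd γ).1 n i - if d i then 1 else 0) =
          T.st n fun i => T.tile (Multiplicative.toAdd γ).1 n i - if d i then 1 else 0 := by
  classical
  choose F hF using fun p : Lat × (Fin 3 → Bool) => T.exists_st_bound hT n
    fun i => T.tile (Multiplicative.toAdd p.1).1 n i - if p.2 i then 1 else 0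
  refine ⟨max n ((U ×ˢ Finset.univ).sup F), le_max_left _ _, fun T' h γ hγ d => ?_⟩
  have e := hF (γ, d) T' fun v m hm => h v m (lt_of_lt_of_le hm
    ((Finset.le_sup (Finset.mem_product.2 ⟨hγ, Finset.mem_univ d⟩)).trans (le_max_right _ _)))
  rw [(T'.off_tile_eq T h n (le_max_left _ _)).2]
  exact e

theorem agree_closed (x : S.X) (U : Finset Lat) : IsClosed {y : S.X | S.AgreeOn U y x} := by
  have e : {y : S.X | S.AgreeOn U y x} = ⋂ γ ∈ U, {y : S.X | y.1 γ = x.1 γ} := by
    ext y; simp [SFT.AgreeOn]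
  rw [e]
  exact isClosed_biInter fun γ _ =>
    isClosed_eq ((continuous_apply γ).comp continuous_subtype_val) continuous_const

theorem digit_isClosed (hL : DigitLocal tower) (v : Fin 3 → ℤ) (m : ℕ)
    (d : Fin 3 → Fin (base k)) : IsClosed {y : S.X | (tower y).digit v m = d} := by
  obtain ⟨U, hU⟩ := hL (v, 0) m
  have ho : IsOpen {y : S.X | ¬(tower y).digit v m = d} := by
    refine isOpen_iff_forall_mem_open.2 fun y hy => ⟨{z : S.X | S.AgreeOn U z y}, ?_, ?_, ?_⟩
    · intro z hz hzd
      exact hy ((hU z y hz m le_rfl).symm.trans hzd)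
    · have e : {z : S.X | S.AgreeOn U z y} = ⋂ γ ∈ U, {z : S.X | z.1 γ = y.1 γ} := by
        ext z; simp [SFT.AgreeOn]
      rw [e]
      refine isOpen_biInter_finset fun γ _ => ?_
      exact Continuous.isOpen_preimage (f := fun z : S.X => z.1 γ)
        ((continuous_apply γ).comp continuous_subtype_val) {y.1 γ} (isOpen_discrete _)
    · intro γ _; rfl
  exact ⟨ho⟩

theorem compactSpace_points : CompactSpace S.X := by
  refine isCompact_iff_compactSpace.1 (IsClosed.isCompact ?_)
  have e : S.carrier = ⋂ γ, (fun x : Lat → S.A => S.window x γ) ⁻¹' {p | S.allowed p} := by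
    ext x; simp [SFT.carrier]
  rw [e]
  exact isClosed_iInter fun γ =>
    (isClosed_discrete _).preimage (continuous_pi fun w => continuous_apply _)

/-- Approximation by the points of a tower that is reset arbitrarily high. -/
theorem approx_of (hL : DigitLocal tower) (hA : DigitAct tower) (hP : PlaneMove tower)
    (x : S.X) (U : Finset Lat) : ∃ (U₁ : Finset Lat) (N₀ : ℕ), U ⊆ U₁ ∧
    ∀ N, N₀ ≤ N → ∀ T : Tower k em, T.Reset →
    (∀ γ ∈ U₁, ∀ m, m ≤ N + 1 →
      T.digit (Multiplicative.toAdd γ).1 m = (tower x).digit (Multiplicative.toAdd γ).1 m) →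
    (∀ γ ∈ U₁, ∀ d : Fin 3 → Bool,
      T.st (N + 1) (fun i => T.tile (Multiplicative.toAdd γ).1 (N + 1) i - if d i then 1 else 0) =
        (tower x).st (N + 1)
          fun i => (tower x).tile (Multiplicative.toAdd γ).1 (N + 1) i - if d i then 1 else 0) →
    ∃ x' : S.X, S.AgreeOn U x' x ∧ ∀ v m, (tower x').digit v m = T.digit v m := by
  obtain ⟨U₁, N₀, hU, hN⟩ := hP x U
  refine ⟨U₁, N₀, hU, fun N h T hT hd hst => ?_⟩
  let C : ℕ → Set S.X := fun M =>
    {y | S.AgreeOn U y x} ∩ ⋂ v, ⋂ m : Fin M, {y | (tower y).digit v m = T.digit v m}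
  have hc : ∀ M, IsClosed (C M) := fun M => (agree_closed x U).inter
    (isClosed_iInter fun v => isClosed_iInter fun m => digit_isClosed hL v m _)
  have hne : ∀ M, (C M).Nonempty := by
    intro M
    obtain ⟨M₁, hM₁, hb⟩ := exists_bound T hT (N + 1) U₁
    obtain ⟨z, hz⟩ := exists_translate hA T x (max M (M₁ + (N + 2)))
    obtain ⟨w, hw⟩ := hN N h (S.act (Multiplicative.ofAdd z) x)
      (fun γ hγ m hm => (hz _ m (by omega)).trans (hd γ hγ m hm))
      (fun γ hγ d => (hb _ (fun v m hm => hz v m (by omega)) γ hγ d).trans (hst γ hγ d))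
    refine ⟨_, hw, Set.mem_iInter₂.2 fun v m => ?_⟩
    have e := hA (S.act (Multiplicative.ofAdd z) x) ((0 : Fin 3 → ℤ), w) (v, 0) m
    simp only [Prod.fst_sub, sub_zero] at e
    exact e.trans (hz v m (by have := m.isLt; omega))
  have : CompactSpace S.X := compactSpace_points
  obtain ⟨x', hx'⟩ := IsCompact.nonempty_iInter_of_sequence_nonempty_isCompact_isClosed C
    (fun M y hy => ⟨hy.1, Set.mem_iInter₂.2 fun v m =>
      Set.mem_iInter₂.1 hy.2 v ⟨m, Nat.lt_succ_of_lt m.isLt⟩⟩)
    hne (hc 0).isCompact hc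
  rw [Set.mem_iInter] at hx'
  exact ⟨x', (hx' 0).1, fun v m => Set.mem_iInter₂.1 (hx' (m + 1)).2 v ⟨m, Nat.lt_succ_self m⟩⟩

/-- Patterns of points reset arbitrarily high occur in every point, with their low digits. -/
theorem recur_of (hA : DigitAct tower) (hP : PlaneMove tower) (x' : S.X)
    (hR : (tower x').Reset) (U : Finset Lat) (M : ℕ) (x : S.X) :
    ∃ δ : Lat, S.AgreeOn U (S.act δ x) x' ∧ ∀ γ ∈ U, ∀ m, m < M →
      (tower (S.act δ x)).digit (Multiplicative.toAdd γ).1 m =
        (tower x').digit (Multiplicative.toAdd γ).1 m := by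
  obtain ⟨U₁, N₀, -, hN⟩ := hP x' U
  obtain ⟨M₁, hM₁, hb⟩ := exists_bound (tower x') hR (N₀ + 1) U₁
  obtain ⟨z, hz⟩ := exists_translate hA (tower x') x (max M (M₁ + (N₀ + 2)))
  obtain ⟨w, hw⟩ := hN N₀ le_rfl (S.act (Multiplicative.ofAdd z) x)
    (fun γ _ m hm => hz _ m (by omega))
    (fun γ hγ d => hb _ (fun v m hm => hz v m (by omega)) γ hγ d)
  refine ⟨Multiplicative.ofAdd ((0 : Fin 3 → ℤ), w) * Multiplicative.ofAdd z, ?_, fun γ _ m hm => ?_⟩
  · rw [← S.act_act]; exact hw
  · rw [← S.act_act]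
    have e := hA (S.act (Multiplicative.ofAdd z) x) ((0 : Fin 3 → ℤ), w)
      ((Multiplicative.toAdd γ).1, 0) m
    simp only [Prod.fst_sub, sub_zero] at e
    exact e.trans (hz _ m (by omega))

end Vale.Agent.P193.W4
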