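import Vale.Agent.P193.W4.Minimal.Shift
import Vale.Agent.P193.W4.Minimal.Reduce
import Vale.Agent.P193.W4.Common.TowerAct
import Vale.Agent.P193.W4.Common.Complete

/-!
P193, module W4 A, minimality: a point with the same digits up to a high level and the same states
there agrees on a finite set with a translate in the plane.
-/

noncomputable section

namespace Vale.Agent.P193.W4.Common.Minimal

open BH

variable {C : Cfg} (hD : DesubStatement C)

/-- The chain of the levels of a point. -/
def chainOf (x : (sft C).X) : Chain C where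
  tiles L := (level hD x (L - L₀ C)).1
  off L := offset hD x (L - L₀ C)
  valid L hL := by
    obtain ⟨n, rfl⟩ := Nat.exists_eq_add_of_le hL
    rw [Nat.add_sub_cancel_left]
    exact (level hD x n).2
  parent L hL := by
    obtain ⟨n, rfl⟩ := Nat.exists_eq_add_of_le hL
    rw [Nat.add_sub_cancel_left, show L₀ C + n + 1 - L₀ C = n + 1 by omega]
    exact level_parent hD x n

lemma chainOf_tiles (x : (sft C).X) (n : ℕ) :
    (chainOf hD x).tiles (L₀ C + n) = (level hD x n).1 := by
  show (level hD x (L₀ C + n - L₀ C)).1 = _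
  rw [Nat.add_sub_cancel_left]

lemma chainOf_off (x : (sft C).X) (n : ℕ) :
    (chainOf hD x).off (L₀ C + n) = offset hD x n := by
  show offset hD x (L₀ C + n - L₀ C) = _
  rw [Nat.add_sub_cancel_left]

/-- The ancestor of a cell is above it. -/
lemma anc_above (x : (sft C).X) {P : Z5} {v : Fin 3 → ℤ} (h : ∀ i, P (zAx i) = v i) :
    ∀ n i, (chainOf hD x).anc (L₀ C) n P (zAx i) = above hD x v n i
  | 0, i => h i
  | n + 1, i => by
    rw [Chain.anc_succ]
    simp only [Chain.up, anc_above x h n i, extent_zAx, chainOf_off]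
    rfl

variable {em : ℕ → Option (List (Full C.k))} (hem : Emits C.R em)

/-- Moves inside the plane. -/
theorem planeMove : PlaneMove (towerOf hD hem) := by
  classical
  intro x U
  set K := chainOf hD x with hK
  obtain ⟨b, hb⟩ : ∃ b : ℕ, ∀ γ ∈ U, ∀ a, (A5.coords γ a).natAbs ≤ b :=
    ⟨U.sup fun γ => Finset.univ.sup fun a => (A5.coords γ a).natAbs, fun γ hγ a =>
      (Finset.le_sup (f := fun a => (A5.coords γ a).natAbs) (Finset.mem_univ a)).trans
        (Finset.le_sup (f := fun γ => Finset.univ.sup fun a => (A5.coords γ a).natAbs) hγ)⟩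
  obtain ⟨n, S, hn, hmove⟩ := move hem (Complete.completeStatement C) K
    (fun _ => -(b : ℤ)) fun _ => (b : ℤ)
  refine ⟨U ∪ S.image A5.cellOf ∪ {1}, n - L₀ C, fun γ hγ =>
    Finset.mem_union_left _ (Finset.mem_union_left _ hγ), fun N hN y hdig hst => ?_⟩
  set K' := chainOf hD y with hK'
  let z₀ : Fin 3 → ℤ := fun i => above hD y 0 (N + 1) i - above hD x 0 (N + 1) i
  let top : Z5 := ![0, 0, z₀ 0, z₀ 1, z₀ 2]
  let D := shiftsFrom K K' (L₀ C + (N + 1)) top
  have hal : Aligned K K' D (L₀ C) (L₀ C + (N + 1)) := aligned_shiftsFrom K K' _ top _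
  have htop : ∀ i, D (L₀ C + (N + 1)) (zAx i) = z₀ i := fun i => by
    simp only [D, shiftsFrom_self]
    fin_cases i <;> rfl
  have hone : (1 : Lat) ∈ U ∪ S.image A5.cellOf ∪ {1} :=
    Finset.mem_union_right _ (Finset.mem_singleton_self _)
  have hz : ∀ e j, j + e = N + 1 → ∀ i,
      D (L₀ C + j) (zAx i) = above hD y 0 j i - above hD x 0 j i := by
    intro e
    induction e with
    | zero =>
      intro j hj i
      obtain rfl : j = N + 1 := by omega
      exact htop i
    | succ e ih =>
      intro j hj i
      rw [hal (L₀ C + j) (by omega) (by omega) (zAx i), extent_zAx,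
        show L₀ C + j + 1 = L₀ C + (j + 1) by omega, ih (j + 1) (by omega) i, chainOf_off,
        chainOf_off]
      have hd : (((towerOf hD hem y).digit 0 j i).val : ℤ) =
          (((towerOf hD hem x).digit 0 j i).val : ℤ) := by
        have h := congrFun (hdig 1 hone j (by omega)) i
        simp only [toAdd_one, Prod.fst_zero] at h
        rw [h]
      rw [digit_above, digit_above] at hd
      have e₁ := Int.mul_ediv_add_emod (above hD x 0 j i - offset hD x j (zAx i)) (base C.k : ℤ)
      have e₂ := Int.mul_ediv_add_emod (above hD y 0 j i - offset hD y j (zAx i)) (base C.k : ℤ)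
      show offset hD y j (zAx i) + (base C.k : ℤ) *
          ((above hD y 0 j i - offset hD y j (zAx i)) / (base C.k : ℤ) -
            (above hD x 0 j i - offset hD x j (zAx i)) / (base C.k : ℤ)) -
          offset hD x j (zAx i) = _
      rw [mul_sub]
      omega
  have h0 : ∀ i, D (L₀ C) (zAx i) = 0 := fun i => by
    have := hz (N + 1) 0 (Nat.zero_add _) i
    rw [Nat.add_zero] at this
    rw [this]
    show (0 : Fin 3 → ℤ) i - (0 : Fin 3 → ℤ) i = 0
    simp
  obtain ⟨t, ht, hbox⟩ := hmove (L₀ C + (N + 1)) (by omega) K' D hal fun P hP => by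
    have hmem : A5.cellOf P ∈ U ∪ S.image A5.cellOf ∪ {1} :=
      Finset.mem_union_left _ (Finset.mem_union_right _ (Finset.mem_image.2 ⟨P, hP, rfl⟩))
    have h := hst _ hmem fun _ => false
    simp only [Bool.false_eq_true, if_false, sub_zero] at h
    have hv : ∀ i, P (zAx i) = (Multiplicative.toAdd (A5.cellOf P)).1 i := fun i => by
      fin_cases i <;> rfl
    set v := (Multiplicative.toAdd (A5.cellOf P)).1
    have hA := hal.anc P
    have hy : ∀ i, (P + D (L₀ C)) (zAx i) = v i := fun i => by
      rw [Pi.add_apply, h0 i, add_zero, hv i]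
    rw [Nat.add_sub_cancel_left]
    show stateAt _ (K.tiles (L₀ C + (N + 1)) _) = stateAt _ (K'.tiles (L₀ C + (N + 1)) _)
    rw [hK, hK', chainOf_tiles, chainOf_tiles]
    refine ((level hD x (N + 1)).2.plane_eq fun i => ?_).1.trans
      (h.symm.trans ((level hD y (N + 1)).2.plane_eq fun i => ?_).1)
    · rw [anc_above hD x hv, liftTile_zAx]
      exact (tile_above hD hem x v (N + 1) i).symm
    · rw [liftTile_zAx, tile_above hD hem y v (N + 1) i, ← anc_above hD y hy (N + 1) i, hA]
  refine ⟨![-(t 0), -(t 1)], fun γ hγ => Subtype.ext ?_⟩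
  set w : V := ((0 : Fin 3 → ℤ), ![-(t 0), -(t 1)])
  have hc : A5.coords (Multiplicative.ofAdd w) = -t := by
    funext a
    fin_cases a
    · rfl
    · rfl
    · exact (neg_eq_zero.2 ((ht 0).trans (h0 0))).symm
    · exact (neg_eq_zero.2 ((ht 1).trans (h0 1))).symm
    · exact (neg_eq_zero.2 ((ht 2).trans (h0 2))).symm
  have hact := congrFun (level_act hD y w 0) (A5.coords γ)
  have hP := hbox (A5.coords γ) (fun a => by have := hb γ hγ a; simp only; omega)
    (fun a => by have := hb γ hγ a; simp only; omega)
  have hzero : L₀ C = L₀ C + 0 := rfl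
  rw [hzero, hK, hK', chainOf_tiles, chainOf_tiles] at hP
  simp only [moveBy, hc, sub_neg_eq_add] at hact
  have h := hact.trans hP.symm
  simp only [level, tiling, A5.cellOf_coords] at h
  exact h

end Vale.Agent.P193.W4.Common.Minimal
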