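import Vale.Agent.P193.W4.Minimal.Closed

/-!
P193, module W4 A, minimality: the position of a cell in its tiles, and translations on the counter
axes giving all cells the digits of another tower below any level.
-/

namespace Vale.Agent.P193.W4

variable {k : ℕ} {em : ℕ → Option (List (Full k))}

lemma base_nat_pos : 0 < base k := by unfold base; omega

namespace Tower

variable (T T' : Tower k em)

/-- The position of the origin in its tile of level `n`. -/
def off : ℕ → Fin 3 → ℤ
  | 0, _ => 0
  | n + 1, i => off n i + (T.shift n i).val * (base k : ℤ) ^ n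

theorem tile_eq (v : Fin 3 → ℤ) : ∀ n i, T.tile v n i = (v i + T.off n i) / (base k : ℤ) ^ n
  | 0, i => by simp [tile, off]
  | n + 1, i => by
    have hb : (0 : ℤ) < (base k : ℤ) := by exact_mod_cast base_nat_pos
    have hp : (base k : ℤ) ^ n ≠ 0 := pow_ne_zero _ hb.ne'
    show (T.tile v n i + (T.shift n i).val) / (base k : ℤ) = _
    rw [tile_eq v n i, off, ← Int.add_mul_ediv_right _ _ hp,
      Int.ediv_ediv_of_nonneg (pow_nonneg hb.le n), pow_succ, add_assoc]

theorem digit_val (v : Fin 3 → ℤ) (n : ℕ) (i : Fin 3) :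
    ((T.digit v n i).val : ℤ) = (v i + T.off (n + 1) i) / (base k : ℤ) ^ n % (base k : ℤ) := by
  have hb : (0 : ℤ) < (base k : ℤ) := by exact_mod_cast base_nat_pos
  have hp : (base k : ℤ) ^ n ≠ 0 := pow_ne_zero _ hb.ne'
  simp only [digit]
  rw [Int.toNat_of_nonneg (Int.emod_nonneg _ hb.ne'), T.tile_eq, off,
    ← Int.add_mul_ediv_right _ _ hp, add_assoc]

theorem off_congr (n : ℕ) : ∀ M, n ≤ M → ∀ i,
    ∃ q : ℤ, T.off M i = T.off n i + q * (base k : ℤ) ^ n
  | 0, h, i => ⟨0, by rw [Nat.le_zero.1 h]; simp⟩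
  | M + 1, h, i => by
    rcases Nat.eq_or_lt_of_le h with rfl | h'
    · exact ⟨0, by simp⟩
    · obtain ⟨q, hq⟩ := off_congr n M (by omega) i
      refine ⟨q + (T.shift M i).val * (base k : ℤ) ^ (M - n), ?_⟩
      rw [off, hq, add_mul, mul_assoc, ← pow_add, Nat.sub_add_cancel (by omega : n ≤ M)]
      ring

/-- One translation gives every cell the digits of `T'` below `M`. -/
theorem exists_align (M : ℕ) : ∃ δ : Fin 3 → ℤ, ∀ (u : Fin 3 → ℤ) (m : ℕ), m < M →
    T.digit (u + δ) m = T'.digit u m := by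
  refine ⟨fun i => T'.off M i - T.off M i, fun u m hm => funext fun i => Fin.ext ?_⟩
  have hb : (0 : ℤ) < (base k : ℤ) := by exact_mod_cast base_nat_pos
  obtain ⟨q, hq⟩ := T.off_congr (m + 1) M hm i
  obtain ⟨q', hq'⟩ := T'.off_congr (m + 1) M hm i
  apply Int.ofNat_inj.1
  rw [T.digit_val, T'.digit_val]
  have e : (u + fun i => T'.off M i - T.off M i) i + T.off (m + 1) i
      = u i + T'.off (m + 1) i + (q' - q) * (base k : ℤ) * (base k : ℤ) ^ m := by
    simp only [Pi.add_apply, hq, hq', pow_succ]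
    ring
  rw [e, Int.add_mul_ediv_right _ _ (pow_ne_zero _ hb.ne'), Int.add_mul_emod_self_right]

/-- Closed cells are closed after such a translation, with the same states below the dead digits. -/
theorem st_align {M : ℕ} {v v' : Fin 3 → ℤ}
    (h : ∀ m, m ≤ M → T.digit v m = T'.digit v' m) (n : ℕ)
    (hd : ∀ i, ∃ m, n ≤ m ∧ m ≤ M ∧ sym (T.digit v m i) = none) :
    T.st n (T.tile v n) = T'.st n (T'.tile v' n) :=
  T.st_eq_of_dead T' v v' n M hd fun m _ hm => h m hm

end Tower

end Vale.Agent.P193.W4
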