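import Vale.Agent.P193.W4.Minimal.Coords
import Vale.Agent.P193.W4.Common.Facts.Steps
import Vale.Agent.P193.W4.Common.Facts.Claims
import Vale.Agent.P193.W4.Common.Numbers

/-!
P193, module W4 A, minimality: the data of a tile which do not depend on its position in the plane,
and how those of the children follow from those of the parents.
-/

noncomputable section

namespace Vale.Agent.P193.W4.Common.Minimal

variable {C : Cfg} {L : ℕ}

/-- What a tile passes to its children besides bits. -/
def ctx (t : St C) : Digits C × PF C × Bool × (Track C → ℕ) := (t.z, t.fin.pf, t.fin.wOn, t.w)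

/-- The same neighbour up to the plane. -/
def ZEq (g g' : Guest) : Prop := ∀ i, g (zAx i) = g' (zAx i)

lemma ZEq.refl (g : Guest) : ZEq g g := fun _ => rfl

lemma ZEq.symm {g g' : Guest} (h : ZEq g g') : ZEq g' g := fun i => (h i).symm

/-- The same data, everywhere in the plane. -/
def SameCtx (q q' : Win (St C)) : Prop := ∀ g g', ZEq g g' → ctx (q g) = ctx (q' g')

lemma SameCtx.symm {q q' : Win (St C)} (h : SameCtx q q') : SameCtx q' q :=
  fun g g' hg => (h g' g hg.symm).symm

lemma SameCtx.trans {q q' q'' : Win (St C)} (h : SameCtx q q') (h' : SameCtx q' q'') :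
    SameCtx q q'' := fun g g' hg => (h g g (ZEq.refl g)).trans (h' g g' hg)

/-- In a valid window the data do not change in the plane. -/
lemma sameCtx_self {q : Win (St C)} (h : Valid L q) : SameCtx q q := by
  obtain ⟨⟨-, hedge, -, -, hfold⟩, -⟩ := h
  have step : ∀ (g : Guest) (a : Fin 5), a.val < 2 → g a = false →
      ctx (q g) = ctx (q (back g a)) := fun g a ha hg => by
    obtain ⟨-, -, -, hw, hz⟩ := hedge g a hg
    have h4 : a ≠ 4 := fun e => by simp [e] at ha
    refine Prod.ext ?_ (Prod.ext (hfold.plane g a hg ha) (Prod.ext (hfold.on g a hg h4) (hw h4)))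
    funext i
    have := hz i
    rwa [if_neg (fun e => by rw [e] at ha; simp [zAx] at ha)] at this
  have flat : ∀ (g : Guest) (a : Fin 5), a.val < 2 →
      ctx (q g) = ctx (q fun c => g c && !decide (c = a)) := fun g a ha => by
    cases hg : g a
    · congr; funext c
      by_cases hc : c = a <;> simp [hc, hg]
    · rw [step (fun c => g c && !decide (c = a)) a ha (by simp)]
      congr; funext c
      by_cases hc : c = a <;> simp [back, hc, hg]
  intro g g' hg
  rw [flat g 0 (by decide), flat _ 1 (by decide), flat g' 0 (by decide),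
    flat (fun c => g' c && !decide (c = 0)) 1 (by decide)]
  congr 2
  funext c
  fin_cases c
  · simp
  · simp
  · simpa [zAx] using hg 0
  · simpa [zAx] using hg 1
  · simpa [zAx] using hg 2

/-! ### The tiles of a window of children -/

/-- The digits of a tile of the window. -/
def dig (Z : Digits C) (d : Guest) : Digits C :=
  fun i => if d (zAx i) then predDigit (Z i) else Z i

/-- The parent of a tile of the window. -/
def par (X Y : ℕ) (Z : Digits C) (d : Guest) : Guest := fun a => d a && atFirst X Y Z a

lemma window_apply (τ : ℕ → Bool) (b : ℕ → Bits) (X Y : ℕ) (Z : Digits C) (d : Guest) :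
    window L τ b X Y Z d = child L τ (guestBits (par X Y Z d) b) (pick L X (d 0)) (pick L Y (d 1))
      (dig Z d) := rfl

lemma guestBits_own (δ : Guest) (b : ℕ → Bits) (k : ℕ) : guestBits δ b k self = b k δ := by
  simp [guestBits, self]

lemma zpar {X Y X' Y' : ℕ} (Z : Digits C) {d d' : Guest} (h : ZEq d d') :
    ZEq (par X Y Z d) (par X' Y' Z d') := fun i => by
  unfold par
  rw [h i]
  fin_cases i <;> rfl

lemma dig_congr (Z : Digits C) {d d' : Guest} (h : ZEq d d') : dig Z d = dig Z d' :=
  funext fun i => by simp only [dig, h i]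

/-! ### Reading the data of a parent -/

lemma finBits_code (s : Fin' C × Claims C) {m : ℕ} (hm : m < A C - 2 - AF C) :
    finBits s (AF C + m) = (code s.2).testBit m := by
  have h1 := AF_lt C
  unfold restRow at h1
  unfold finBits
  rw [if_neg (by omega), if_neg (by omega), if_neg (by omega), if_neg (by omega), if_neg (by omega),
    if_neg (by omega), if_pos (by omega), Nat.add_sub_cancel_left]

/-- The parent hands down its readout. -/
lemma pfOf_quad (δ : Guest) (q : Win (St C)) :
    pfOf C (guestBits δ (quadBits L q)) = readout (claims L (q δ)) := by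
  have h1 := AF_lt C
  have hc := Num.code_claims_lt (claims L (q δ))
  have e : (copyUpTo C (guestBits δ (quadBits L q)) (A C)).val = code (claims L (q δ)) := by
    have e' : (∑ m ∈ Finset.range (A C - 2 - AF C),
        if guestBits δ (quadBits L q) (AF C + m) self then 2 ^ m else 0) = code (claims L (q δ)) := by
      refine Nat.eq_of_testBit_eq fun i => ?_
      rw [testBit_sum]
      by_cases hi : i < A C - 2 - AF C
      · rw [decide_eq_true (Finset.mem_range.2 hi), Bool.true_and, guestBits_own, quadBits,
          enc, if_pos (by omega), finBits_code _ hi]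
      · rw [decide_eq_false (by rwa [Finset.mem_range]), Bool.false_and,
          Nat.testBit_lt_two_pow (hc.trans_le (Nat.pow_le_pow_right two_pos (not_lt.1 hi)))]
    unfold copyUpTo
    simp only
    rw [min_eq_right (by omega), e', Nat.mod_eq_of_lt hc]
  unfold pfOf
  rw [e, Num.claimsOfCopy_code]
  rfl

lemma readout_congr {t t' : St C} (h : ctx t = ctx t') :
    readout (claims L t) = readout (claims L t') := by
  simp only [ctx, Prod.mk.injEq] at h
  obtain ⟨h1, h2, h3, h4⟩ := h
  simp only [readout, claims, h1, h2, h3, h4]

/-- The bits of a word are those of the numbers. -/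
lemma wordBit_congr {t t' : St C} (h : t.w = t'.w) (i : ℕ) (r : Track C) :
    enc L t (A C + T C * i + 7 + r.val) = enc L t' (A C + T C * i + 7 + r.val) := by
  have hT := T_ge C
  have e : (A C + T C * i + 7 + r.val - A C) % T C = r.val + 7 := by
    rw [show A C + T C * i + 7 + r.val - A C = r.val + 7 + T C * i by omega,
      Nat.add_mul_mod_self_left, Nat.mod_eq_of_lt (by omega)]
  unfold enc
  rw [if_neg (by omega), if_neg (by omega), e]
  simp only [num, h]

/-- The bits of two parents hand down the same. -/
def CtxBits (C : Cfg) (L : ℕ) (b b' : ℕ → Bits) : Prop :=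
  ∀ δ δ', ZEq δ δ' → pfOf C (guestBits δ b) = pfOf C (guestBits δ' b') ∧
    ∀ r, wOf C L (guestBits δ b) r = wOf C L (guestBits δ' b') r

lemma ctxBits_of {q q' : Win (St C)} (h : SameCtx q q') :
    CtxBits C L (quadBits (L + 1) q) (quadBits (L + 1) q') := fun δ δ' hd => by
  refine ⟨?_, fun r => ?_⟩
  · rw [pfOf_quad, pfOf_quad, readout_congr (h δ δ' hd)]
  · unfold wOf
    refine Finset.sum_congr rfl fun i _ => ?_
    rw [guestBits_own, guestBits_own]
    show (if enc (L + 1) (q δ) _ = true then _ else _) = _
    rw [wordBit_congr (t' := q' δ') (congrArg (fun c => c.2.2.2) (h δ δ' hd)) i r]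
    rfl

lemma ctx_child (τ : ℕ → Bool) (b : ℕ → Bits) (X Y : ℕ) (Z : Digits C) :
    ctx (child L τ b X Y Z) = (Z, pfOf C b, childOn L b Z, childWord L b Z) := rfl

/-- Children of parents handing down the same have the same data. -/
lemma sameCtx_window {b b' : ℕ → Bits} (hb : CtxBits C L b b') (τ : ℕ → Bool) (X Y X' Y' : ℕ)
    (Z : Digits C) : SameCtx (window L τ b X Y Z) (window L τ b' X' Y' Z) := fun d d' hd => by
  obtain ⟨hp, hw⟩ := hb _ _ (zpar (X := X) (Y := Y) (X' := X') (Y' := Y') Z hd)
  rw [window_apply, window_apply, ctx_child, ctx_child, dig_congr Z hd, hp]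
  have hon : childOn L (guestBits (par X Y Z d) b) (dig Z d') =
      childOn L (guestBits (par X' Y' Z d') b') (dig Z d') := by
    unfold childOn
    rw [hp]
  refine Prod.ext rfl (Prod.ext rfl (Prod.ext hon (funext fun r => ?_)))
  show childWord L _ _ r = childWord L _ _ r
  unfold childWord
  rw [hon, hw r]

end Vale.Agent.P193.W4.Common.Minimal
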