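import Vale.Agent.P193.W4.Minimal.Ctx
import Vale.Agent.P193.W4.Common.Window

/-!
P193, module W4 A, minimality: which bits of the parents determine which bits of a window of
children (after P196/Tile/Minimal/Dep).
-/

noncomputable section

namespace Vale.Agent.P193.W4.Common.Minimal

variable {C : Cfg} {L : ℕ}

/-- The row `m` of the parent is read by the scanning or lookup column at `(x, y)`. -/
def Scans (C : Cfg) (L x y m : ℕ) : Prop :=
  (IsCol L x 3 ∧ lo L x = 0 ∧ M L ≤ y ∧ rowIdx L y ≤ lastK C L ∧ AF C ≤ m ∧ m ≤ rowIdx L y) ∨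
    (IsZone C L x 6 ∧ M L ≤ y ∧ rowsBelow L y ≤ xlRow C (B C - 1) ∧ m < rowsBelow L y ∧
      (m = 0 ∨ AF C ≤ m))

/-- The rows read by the scanning and lookup columns of a window. -/
def RestVis (C : Cfg) (L X Y m : ℕ) : Prop := ∃ c c', Scans C L (pick L X c) (pick L Y c') m

/-- Some tile of the window shows a comparison. -/
def EqWin (q : Win (St C)) : Prop := ∃ d, (q d).fin.eq ≠ none

/-- The rows which are not determined by the position of a window in its parents and the positions
of those. -/
def Soft (q : Win (St C)) (k : ℕ) : Prop := (1 ≤ k ∧ k ≤ 64) ∨ (k = 66 ∧ EqWin q)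

/-- Two windows show the same bits on the given rows. -/
def Agree (L : ℕ) (q q' : Win (St C)) (P : ℕ → Prop) : Prop :=
  ∀ k, P k → quadBits L q' k = quadBits L q k

/-- The row of a horizontal component. -/
def hRow (g : Guest) : ℕ := (gidx g).val + 1

/-- The row of a vertical component. -/
def vRow (g : Guest) : ℕ := (gidx g).val + 33

lemma restVis_rows {X Y m : ℕ} (h : RestVis C L X Y m) : m = 0 ∨ AF C ≤ m := by
  obtain ⟨c, c', h | h⟩ := h
  · exact Or.inr h.2.2.2.2.1
  · exact h.2.2.2.2

lemma scans_even {x y m : ℕ} (h : Scans C L x y m) :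
    (IsCol L x 3 ∨ IsCol L x 6) ∧ lo L x % 2 = 0 := by
  rcases h with h | h
  · exact ⟨Or.inl h.1, by rw [h.2.1]⟩
  · exact ⟨Or.inr h.1.1, by have := h.1.2.1; omega⟩

/-- A window with a column of the bundle reads nothing on scanning and lookup columns. -/
lemma no_restVis {X Y : ℕ} (hL : L₀ C ≤ L) (hX : X < H L) {c : Bool}
    (hc : IsBundle L (pick L X c)) (m : ℕ) : ¬ RestVis C L X Y m := by
  rintro ⟨e, e', h⟩
  obtain ⟨h, he⟩ := scans_even h
  rcases h with h | h <;>
  · have := pick_unique hL hX (bundle_even hL hc) (col_even hL ⟨h, he⟩)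
    subst this
    have := hc.1.2.symm.trans h.2
    omega

/-- A window with a wire row reads only rows up to that one. -/
lemma restVis_le {X Y m : ℕ} (hL : L₀ C ≤ L) (hY : Y < H L) {c : Bool}
    (hw : IsWire L (pick L Y c)) (h : RestVis C L X Y m) : m ≤ hi L (pick L Y c) := by
  obtain ⟨e, e', h⟩ := h
  have hy := pick_lt hY c
  have h1 : 1 ≤ pick L Y c := le_trans (M_pos L) (M_le_of_wire hw)
  have h2 : pick L Y c + 1 < H L := by
    by_contra h'
    exact (rows_zero hL).2.1 ((show H L - 1 = pick L Y c by omega) ▸ hw)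
  obtain ⟨-, -, h3, h4⟩ := wire_near hL hw (y' := pick L Y e') (by
    have := near hY (b := c) rfl h1 h2 e'
    cases c <;> cases e' <;> simp at this <;> omega)
  rcases h with h | h <;> omega

/-! ### Rows -/

lemma quadBits_h (q : Win (St C)) (g : Guest) :
    quadBits L q (hRow g) = fun d => (q d).fin.h g := by
  funext d
  have := (gidx g).isLt
  have := A_ge C
  show enc L (q d) (hRow g) = _
  unfold hRow enc finBits
  rw [if_pos (by omega), if_neg (by omega), if_pos (by omega)]
  congr
  apply gidx.injective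
  rw [Equiv.apply_symm_apply]
  exact Fin.ext (by simp only; omega)

lemma quadBits_vb (q : Win (St C)) (g : Guest) :
    quadBits L q (vRow g) = fun d => (q d).fin.vb g := by
  funext d
  have := (gidx g).isLt
  have := A_ge C
  show enc L (q d) (vRow g) = _
  unfold vRow enc finBits
  rw [if_pos (by omega), if_neg (by omega), if_neg (by omega), if_pos (by omega)]
  congr
  apply gidx.injective
  rw [Equiv.apply_symm_apply]
  exact Fin.ext (by simp only; omega)

lemma quadBits_eq (q : Win (St C)) :
    quadBits L q 66 = fun d => decide ((q d).fin.eq = some true) := by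
  funext d
  have := A_ge C
  show enc L (q d) 66 = _
  unfold enc finBits
  rw [if_pos (by omega), if_neg (by omega), if_neg (by omega), if_neg (by omega), if_neg (by omega),
    if_pos rfl]

lemma eq_of_not_eqWin {q : Win (St C)} (h : ¬ EqWin q) :
    quadBits L q 66 = fun _ => false := by
  rw [quadBits_eq]
  funext d
  have : (q d).fin.eq = none := by
    by_contra hne
    exact h ⟨d, hne⟩
  simp [this]

lemma quadBits_rest {q q' : Win (St C)} (h : ∀ d, (q d).fin.rest = (q' d).fin.rest) {k : ℕ}
    (h1 : 67 ≤ k) (h2 : k < AF C) : quadBits L q k = quadBits L q' k := by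
  funext d
  have := AF_lt C
  show enc L (q d) k = enc L (q' d) k
  rw [enc, enc, if_pos (by omega), if_pos (by omega)]
  simp only [finBits, h d]
  split_ifs <;> first | rfl | omega

/-! ### Children -/

lemma guestBits_row {b b' : ℕ → Bits} {k : ℕ} (h : b k = b' k) (δ : Guest) :
    guestBits δ b k = guestBits δ b' k := by
  unfold guestBits
  simp only [h]

lemma lookAt_congr {x n : ℕ} {b b' : ℕ → Bits}
    (h : ∀ k, k < n → (k = 0 ∨ AF C ≤ k) → b k = b' k) :
    lookAt C L x n b = lookAt C L x n b' := by
  unfold lookAt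
  congr 1
  · apply Fin.ext
    refine congrArg (· % 2 ^ (A C - 2 - AF C)) ?_
    refine Finset.sum_congr rfl fun m hm => ?_
    rw [Finset.mem_range, lt_min_iff] at hm
    rw [h _ (by omega) (Or.inr (Nat.le_add_right _ _))]
  · rcases Nat.eq_zero_or_pos n with h0 | h0
    · simp [h0]
    · rw [h 0 h0 (Or.inl rfl)]
  · refine decide_eq_decide.2 (forall_congr' fun i => forall_congr' fun _ =>
      forall_congr' fun hi => ?_)
    rw [h _ hi (Or.inr (by have := AF_lt C; unfold xlRow; omega))]

lemma claims_congr {t t' : St C} (hx : t.x = t'.x) (hy : t.y = t'.y) (hu : t.u = t'.u)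
    (hc : ctx t = ctx t') : claims L t = claims L t' := by
  simp only [ctx, Prod.mk.injEq] at hc
  obtain ⟨h1, h2, h3, h4⟩ := hc
  simp only [claims, hx, hy, hu, h1, h2, h3, h4]

lemma num_congr {t t' : St C} (hx : t.x = t'.x) (hy : t.y = t'.y) (hu : t.u = t'.u)
    (hw : t.w = t'.w) (i : ℕ) : num L t i = num L t' i := by
  simp only [num, hx, hy, hu, hw]

section

variable (τ : ℕ → Bool) {b b' : ℕ → Bits} {X Y : ℕ} {Z : Digits C}

lemma window_ctx (hb : CtxBits C L b b') (d : Guest) :
    ctx (window L τ b X Y Z d) = ctx (window L τ b' X Y Z d) :=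
  sameCtx_window hb τ X Y X Y Z d d (ZEq.refl d)

lemma window_claims (hb : CtxBits C L b b') (d : Guest) :
    claims L (window L τ b X Y Z d) = claims L (window L τ b' X Y Z d) :=
  claims_congr rfl rfl rfl (window_ctx τ hb d)

/-- Rows of positions. -/
lemma window_pos (hb : CtxBits C L b b') (hX : X < H L) (hY : Y < H L) {k : ℕ}
    (hk : k = 0 ∨ k = 65 ∨ AF C ≤ k) :
    quadBits L (window L τ b X Y Z) k = quadBits L (window L τ b' X Y Z) k := by
  funext d
  have hc := window_claims τ hb (X := X) (Y := Y) (Z := Z) d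
  have hw : ∀ r, (window L τ b X Y Z d).w r = (window L τ b' X Y Z d).w r := fun r =>
    congrFun (congrArg (fun c => c.2.2.2) (window_ctx τ hb d)) r
  have hn : ∀ i, num L (window L τ b X Y Z d) i = num L (window L τ b' X Y Z d) i :=
    num_congr rfl rfl rfl (funext hw)
  have h1 := AF_lt C
  show enc L _ k = enc L _ k
  unfold enc
  by_cases hkA : k < A C
  · rw [if_pos hkA, if_pos hkA]
    unfold finBits
    rcases hk with rfl | rfl | hk
    · rw [if_pos rfl, if_pos rfl]
      rfl
    · simp only [window_apply, child_eqf τ _ _ _ _ (pick_lt hX _) (pick_lt hY _)]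
      split_ifs <;> first | rfl | omega
    · unfold restRow at h1
      simp only [hc]
      split_ifs <;> first | rfl | omega
  · rw [if_neg hkA, if_neg hkA, hn]

lemma window_rest (hb : CtxBits C L b b') (hX : X < H L) (hY : Y < H L)
    (h : ∀ m, RestVis C L X Y m → b m = b' m) (d : Guest) :
    (window L τ b X Y Z d).fin.rest = (window L τ b' X Y Z d).fin.rest := by
  have hc := window_ctx τ hb (X := X) (Y := Y) (Z := Z) d
  have hpx := pick_lt hX (d 0)
  have hpy := pick_lt hY (d 1)
  unfold Fin'.rest
  simp only [Prod.mk.injEq]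
  refine ⟨?_, ?_, ?_, ?_, ?_⟩
  · rw [window_apply, window_apply, child_carry τ _ _ _ _ hpx hpy, child_carry τ _ _ _ _ hpx hpy]
    split_ifs with hs
    · refine congrArg some (scan_congr fun k h1 h2 =>
        guestBits_row (h k ⟨d 0, d 1, Or.inl ?_⟩) _)
      exact ⟨hs.1, hs.2.1, hs.2.2.1, hs.2.2.2.2.1, h1, h2⟩
    · rfl
  · rw [window_apply, window_apply, child_look τ _ _ _ _ hpx hpy, child_look τ _ _ _ _ hpx hpy]
    split_ifs with hs
    · refine congrArg some (lookAt_congr fun k h1 h2 =>
        guestBits_row (h k ⟨d 0, d 1, Or.inr ?_⟩) _)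
      exact ⟨hs.1, hs.2.1, hs.2.2.1, h1, h2⟩
    · rfl
  · rw [window_apply, window_apply, child_live τ _ _ _ _ hpy, child_live τ _ _ _ _ hpy]
  · simp only [ctx, Prod.mk.injEq] at hc
    exact hc.2.1
  · simp only [ctx, Prod.mk.injEq] at hc
    exact hc.2.2.1

lemma eqWin_congr (hX : X < H L) (hY : Y < H L) :
    EqWin (window L τ b X Y Z) ↔ EqWin (window L τ b' X Y Z) := by
  refine exists_congr fun d => ?_
  simp only [window_apply, child_eqf τ _ _ _ _ (pick_lt hX _) (pick_lt hY _)]
  split_ifs <;> simp

/-- Rows which are not soft are determined by the rows read on scanning and lookup columns. -/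
lemma agree_nonSoft (hb : CtxBits C L b b') (hX : X < H L) (hY : Y < H L)
    (h : ∀ m, RestVis C L X Y m → b m = b' m) :
    Agree L (window L τ b X Y Z) (window L τ b' X Y Z) fun k => ¬ Soft (window L τ b X Y Z) k := by
  intro k hk
  by_cases hp : k = 0 ∨ k = 65 ∨ AF C ≤ k
  · exact (window_pos τ hb hX hY hp).symm
  simp only [not_or, not_le] at hp
  obtain ⟨h0, h65, hF⟩ := hp
  simp only [Soft, not_or, not_and, not_le] at hk
  by_cases h66 : k = 66
  · subst h66
    rw [eq_of_not_eqWin (hk.2 rfl),
      eq_of_not_eqWin fun e => hk.2 rfl ((eqWin_congr τ hX hY).2 e)]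
  · exact (quadBits_rest (fun d => window_rest τ hb hX hY h d) (by omega) hF).symm

/-- A row of horizontal bits. -/
lemma window_h (hX : X < H L) (hY : Y < H L)
    (h : ∀ c, IsLive C L (pick L Y c) → b (hi L (pick L Y c)) = b' (hi L (pick L Y c)))
    (g : Guest) : quadBits L (window L τ b X Y Z) (hRow g) =
      quadBits L (window L τ b' X Y Z) (hRow g) := by
  simp only [quadBits_h]
  funext d
  simp only [window_apply, child_h τ _ _ _ _ (pick_lt hX _) (pick_lt hY _)]
  split_ifs with hc
  · exact congrFun (guestBits_row (h _ hc.1) _) g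
  · rfl

/-- A row of vertical bits. -/
lemma window_vb (hX : X < H L) (hY : Y < H L)
    (h : ∀ c, IsBundle L (pick L X c) → lo L (pick L X c) / 2 ≤ lastK C L →
      b (lo L (pick L X c) / 2) = b' (lo L (pick L X c) / 2))
    (g : Guest) : quadBits L (window L τ b X Y Z) (vRow g) =
      quadBits L (window L τ b' X Y Z) (vRow g) := by
  simp only [quadBits_vb]
  funext d
  simp only [window_apply, child_vb τ _ _ _ _ (pick_lt hX _) (pick_lt hY _)]
  split_ifs with hc
  · exact congrFun (guestBits_row (h _ hc.1 hc.2.1) _) g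
  · rfl

/-- A window is determined by the shown rows, the rows read by its columns, its comparisons, and
what is handed down. -/
lemma window_congr (hb : CtxBits C L b b') (hX : X < H L) (hY : Y < H L)
    (hh : ∀ c, IsLive C L (pick L Y c) → b (hi L (pick L Y c)) = b' (hi L (pick L Y c)))
    (hv : ∀ c, IsBundle L (pick L X c) → lo L (pick L X c) / 2 ≤ lastK C L →
      b (lo L (pick L X c) / 2) = b' (lo L (pick L X c) / 2))
    (hr : ∀ m, RestVis C L X Y m → b m = b' m)
    (he : ∀ d : Guest, IsZone C L (pick L X (d 0)) 4 → M L ≤ pick L Y (d 1) →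
      rowsBelow L (pick L Y (d 1)) ≤ A C - 1 → MidDigits (dig Z d) →
      ∀ k < rowsBelow L (pick L Y (d 1)), b k = b' k) :
    window L τ b X Y Z = window L τ b' X Y Z := by
  funext d
  have hpx := pick_lt hX (d 0)
  have hpy := pick_lt hY (d 1)
  have h1 : (window L τ b X Y Z d).fin.h = (window L τ b' X Y Z d).fin.h := funext fun g =>
    congrFun ((quadBits_h (L := L) _ g).symm.trans
      ((window_h τ hX hY hh g).trans (quadBits_h _ g))) d
  have h2 : (window L τ b X Y Z d).fin.vb = (window L τ b' X Y Z d).fin.vb := funext fun g =>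
    congrFun ((quadBits_vb (L := L) _ g).symm.trans
      ((window_vb τ hX hY hv g).trans (quadBits_vb _ g))) d
  have h3 : (window L τ b X Y Z d).fin.eq = (window L τ b' X Y Z d).fin.eq := by
    simp only [window_apply, child_eqf τ _ _ _ _ hpx hpy]
    split_ifs with hc
    · refine congrArg some (decide_eq_decide.2 (forall_congr' fun k => forall_congr' fun hk => ?_))
      unfold zoneMatch
      rw [guestBits_row (he d hc.1 hc.2.1 hc.2.2.1 hc.2.2.2 k hk)]
    · rfl
  have h4 := window_rest τ hb hX hY hr (Z := Z) d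
  have h5 := window_ctx τ hb (X := X) (Y := Y) (Z := Z) d
  simp only [Fin'.rest, Prod.mk.injEq] at h4
  simp only [ctx, Prod.mk.injEq] at h5
  obtain ⟨hc, hl, -, hp, ho⟩ := h4
  obtain ⟨-, -, -, hw⟩ := h5
  simp only [window_apply] at h1 h2 h3 hc hl hp ho hw ⊢
  unfold child at h1 h2 h3 hc hl hp ho hw ⊢
  simp only [St.mk.injEq, Fin'.mk.injEq, true_and] at h1 h2 h3 hc hl hp ho hw ⊢
  exact ⟨hw, h1, h2, hc, h3, hl, hp, ho⟩

end

end Vale.Agent.P193.W4.Common.Minimal
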