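import Vale.Agent.P193.W4.Minimal.EqColumn

/-!
P193, module W4 A, minimality: a comparing window in a suitable column (after
P196/Tile/Minimal/Eq).

At the last compared row the table value has to be reproduced.  If the parents do not match the
column, the column is kept and the parents are taken among two kinds of windows which differ.
-/

noncomputable section

namespace Vale.Agent.P193.W4.Common.Minimal

variable {C : Cfg}

/-- The table column asking for the bits `f`. -/
def mk (C : Cfg) (f : ℕ → Bits) : ℕ :=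
  Nat.ofBits fun n : Fin (B C) => decide (n.val = 1) || (decide (2 ≤ n.val) &&
    f ((n.val - 2) / 32) (gidx.symm ⟨(n.val - 2) % 32, Nat.mod_lt _ (by norm_num)⟩))

lemma mk_high (f : ℕ → Bits) {i : ℕ} (h2 : 2 ≤ i) :
    (mk C f).testBit i = (decide (i < B C) &&
      f ((i - 2) / 32) (gidx.symm ⟨(i - 2) % 32, Nat.mod_lt _ (by norm_num)⟩)) := by
  rw [mk, Nat.testBit_ofBits]
  by_cases h : i < B C
  · simp [h, h2, show i ≠ 1 by omega]
  · simp [h]

lemma mk_bit (f : ℕ → Bits) {k : ℕ} (hk : k < A C) (g : Guest) :
    (mk C f).testBit (32 * k + (gidx g).val + 2) = f k g := by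
  have hg := (gidx g).isLt
  have hB : B C = 32 * A C + 2 := rfl
  have e : gidx.symm ⟨(32 * k + (gidx g).val + 2 - 2) % 32, Nat.mod_lt _ (by norm_num)⟩ = g := by
    rw [Equiv.symm_apply_eq]
    exact Fin.ext (show (32 * k + (gidx g).val + 2 - 2) % 32 = (gidx g).val by omega)
  rw [mk_high f (by omega), e, show (32 * k + (gidx g).val + 2 - 2) / 32 = k by omega,
    decide_eq_true (show 32 * k + (gidx g).val + 2 < B C by omega), Bool.true_and]

/-- The guest with the last index. -/
def lastGuest : Guest := gidx.symm ⟨31, by norm_num⟩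

lemma last_index (C : Cfg) : B C - 1 = 32 * (A C - 1) + (gidx lastGuest).val + 2 := by
  have hA := A_ge C
  have hB : B C = 32 * A C + 2 := rfl
  rw [lastGuest, Equiv.apply_symm_apply]
  simp only
  omega

lemma mk_code (f : ℕ → Bits) (h : f (A C - 1) lastGuest = true) : IsCode C (mk C f) := by
  have hA := A_ge C
  have hB : B C = 32 * A C + 2 := rfl
  refine ⟨?_, ?_, Nat.ofBits_lt_two_pow _⟩
  · have h0 : (mk C f).testBit 0 = false := by
      rw [mk, Nat.testBit_ofBits, dif_pos (by omega)]
      simp
    have h1 : (mk C f).testBit 1 = true := by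
      rw [mk, Nat.testBit_ofBits, dif_pos (by omega)]
      simp
    rw [Nat.testBit_zero, decide_eq_false_iff_not] at h0
    rw [Nat.testBit_succ, Nat.testBit_zero, decide_eq_true_iff] at h1
    omega
  · refine Nat.ge_two_pow_of_testBit ?_
    rw [last_index, mk_bit f (by omega)]
    exact h

lemma code_top {z : ℕ} (hz : IsCode C z) : z.testBit (B C - 1) = true := by
  obtain ⟨-, h1, h2⟩ := hz
  obtain ⟨m, hm⟩ : ∃ m, B C = m + 1 := ⟨B C - 1, by unfold B; omega⟩
  rw [show B C - 1 = m by omega] at h1 ⊢
  rw [hm, pow_succ] at h2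
  have : z / 2 ^ m = 1 := Nat.div_eq_of_lt_le (by omega) (by omega)
  simp [Nat.testBit_eq_decide_div_mod_eq, this]

/-- The column with the compared rows changed from the bits `b` to the bits `b'`. -/
def copyCol (C : Cfg) (b b' : ℕ → Bits) (x n : ℕ) : ℕ :=
  mk C fun k g => if k < n then xor (xor (b k g) (b' k g)) (x.testBit (32 * k + (gidx g).val + 2))
    else x.testBit (32 * k + (gidx g).val + 2)

lemma copy_code (b b' : ℕ → Bits) {x n : ℕ} (hx : IsCode C x) (hn : n ≤ A C - 1) :
    IsCode C (copyCol C b b' x n) := by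
  refine mk_code _ ?_
  rw [if_neg (by omega), ← last_index]
  exact code_top hx

lemma copy_match (b b' : ℕ → Bits) (x : ℕ) {n m : ℕ} (hm : m ≤ n) (hn : n ≤ A C - 1) :
    (∀ k < m, ∀ g, b' k g = (copyCol C b b' x n).testBit (32 * k + (gidx g).val + 2)) ↔
      ∀ k < m, ∀ g, b k g = x.testBit (32 * k + (gidx g).val + 2) := by
  refine forall_congr' fun k => forall_congr' fun hk => forall_congr' fun g => ?_
  have hA := A_ge C
  rw [copyCol, mk_bit _ (by omega), if_pos (by omega)]
  cases b k g <;> cases b' k g <;> cases x.testBit (32 * k + (gidx g).val + 2) <;> simp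

lemma copy_bit (b b' : ℕ → Bits) {x n i : ℕ} (hx : x < 2 ^ B C) (h2 : 2 ≤ i)
    (h : (i - 2) / 32 < n → b' ((i - 2) / 32) = b ((i - 2) / 32)) :
    (copyCol C b b' x n).testBit i = x.testBit i := by
  rw [copyCol, mk_high _ h2]
  by_cases hi : i < B C
  · have e : 32 * ((i - 2) / 32) + (i - 2) % 32 + 2 = i := by omega
    simp only [hi, decide_true, Bool.true_and, Equiv.apply_symm_apply, e]
    split_ifs with hk
    · rw [h hk]; simp
    · rfl
  · rw [Nat.testBit_lt_two_pow (hx.trans_le (Nat.pow_le_pow_right (by norm_num) (not_lt.1 hi)))]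
    simp [hi]

lemma copy_slot (b b' : ℕ → Bits) {x n k : ℕ} (hx : x < 2 ^ B C) (g : Guest)
    (h : k < n → b' k = b k) :
    (copyCol C b b' x n).testBit (32 * k + (gidx g).val + 2) =
      x.testBit (32 * k + (gidx g).val + 2) := by
  have hg := (gidx g).isLt
  exact copy_bit b b' hx (by omega)
    (by rw [show (32 * k + (gidx g).val + 2 - 2) / 32 = k by omega]; exact h)

/-! ### The finite rows -/

lemma quadBits_fin {L : ℕ} (q : Win (St C)) {k : ℕ} (hk : k < A C) (d : Guest) :
    quadBits L q k d = finBits (sig L q d) k := by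
  show enc L (q d) k = _
  rw [enc, if_pos hk]
  rfl

lemma quadBits_of_sig {L : ℕ} {q q' : Win (St C)} (h : ∀ d, sig L q' d = sig L q d) {k : ℕ}
    (hk : k < A C) : quadBits L q' k = quadBits L q k := by
  funext d
  rw [quadBits_fin q' hk, quadBits_fin q hk, h d]

/-- An accepted window has value one in the column of its bits. -/
lemma table_of_match {L : ℕ} {q : Win (St C)} (hq : Valid L q) {x : ℕ}
    (h : ∀ k < A C, ∀ g, quadBits L q k g = x.testBit (32 * k + (gidx g).val + 2)) :
    table C x = true := by
  simp only [table, decide_eq_true_iff]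
  exact ⟨sig L q, hq.1.2.2, fun k hk g => by rw [← quadBits_fin q hk g]; exact h k hk g⟩

/-- A column asking for a zero on the last constant row has value zero. -/
lemma table_false {x : ℕ} {g : Guest}
    (h : x.testBit (32 * (A C - 1) + (gidx g).val + 2) = false) : table C x = false := by
  have hA := AF_lt C
  unfold restRow at hA
  simp only [table, decide_eq_false_iff_not]
  rintro ⟨s, -, hs⟩
  have := hs (A C - 1) (by omega) g
  rw [h, finBits, if_neg (by omega), if_neg (by omega), if_neg (by omega), if_neg (by omega),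
    if_neg (by omega), if_neg (by omega), if_neg (by omega), decide_eq_false_iff_not] at this
  exact this (by omega)

section

variable {L : ℕ} {K : Chain C} {P : Z5} {c : Bool}

/-- The comparisons alone. -/
lemma rep_eq_low (hC : CompleteStatement C)
    (d : EqData C L (K.pos L P 0) (K.pos L P 1) (K.dig L P) c)
    (hlow : hi L (K.pos L P 1) < A C - 1) : K.Rep L P fun k => k = 0 ∨ k = 66 := by
  obtain ⟨hX, hY, e⟩ := K.win_eq d.hL P
  refine Chain.RepP.step hC d.hL (Chain.repP_none (Φ := fun _ => True) fun _ _ => trivial)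
    fun S _ _ => ?_
  set b := quadBits (L + 1) (K.win (L + 1) (K.up L P))
  set b' := quadBits (L + 1) S
  set x := lo L (pick L (K.pos L P 0) c)
  set z := copyCol C b b' x (nRows C L (K.pos L P 1))
  have hn : nRows C L (K.pos L P 1) ≤ A C - 1 := min_le_left _ _
  have hz : IsCode C z := copy_code b b' d.col.2 hn
  refine ⟨newX L (K.pos L P 0) c z, K.pos L P 1, (col_spec d hz).1, hY, fun k hk => ?_⟩
  rw [e]
  rcases hk with rfl | rfl
  · rw [quadBits_v, quadBits_v]
    funext v
    exact newX_v (τ := table C) (b := b) (b' := b') d hz (Or.inl hlow) v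
  · rw [quadBits_eq, quadBits_eq]
    funext v
    rw [newX_eq (τ := table C) d hz (fun n h1 _ => copy_match b b' x h1 hn) v]

/-- The comparisons and one bit of a number. -/
lemma rep_eq_num (hC : CompleteStatement C)
    (d : EqData C L (K.pos L P 0) (K.pos L P 1) (K.dig L P) c) {k : ℕ} (hk : A C ≤ k)
    (h : K.Rep (L + 1) (K.up L P) fun m => m = ((k - A C) / T C - 2) / 32) :
    K.Rep L P fun m => m = 66 ∨ m = k := by
  obtain ⟨hX, hY, e⟩ := K.win_eq d.hL P
  refine Chain.RepP.step hC d.hL h fun S hS ha => ?_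
  set b := quadBits (L + 1) (K.win (L + 1) (K.up L P))
  set b' := quadBits (L + 1) S
  set x := lo L (pick L (K.pos L P 0) c)
  set z := copyCol C b b' x (nRows C L (K.pos L P 1))
  have hn : nRows C L (K.pos L P 1) ≤ A C - 1 := min_le_left _ _
  have hz : IsCode C z := copy_code b b' d.col.2 hn
  refine ⟨newX L (K.pos L P 0) c z, K.pos L P 1, (col_spec d hz).1, hY, fun m hm => ?_⟩
  rw [e]
  rcases hm with rfl | rfl
  · rw [quadBits_eq, quadBits_eq]
    funext v
    rw [newX_eq (τ := table C) d hz (fun n h1 _ => copy_match b b' x h1 hn) v]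
  · exact newX_num (ctxBits_of hS.2) d hz hk fun _ h2 =>
      copy_bit b b' d.col.2.2.2 h2 fun _ => ha _ rfl

/-- The finite data below the last compared row. -/
lemma rep_eq_sig_low (hC : CompleteStatement C)
    (d : EqData C L (K.pos L P 0) (K.pos L P 1) (K.dig L P) c)
    (hlow : hi L (K.pos L P 1) < A C - 1)
    (h : K.Rep (L + 1) (K.up L P) fun m => m = hi L (K.pos L P 1 - 1)) :
    K.Rep L P fun k => k < A C := by
  obtain ⟨hX, hY, e⟩ := K.win_eq d.hL P
  refine Chain.RepP.step hC d.hL h fun S hS ha => ?_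
  set b := quadBits (L + 1) (K.win (L + 1) (K.up L P))
  set b' := quadBits (L + 1) S
  set x := lo L (pick L (K.pos L P 0) c)
  set z := copyCol C b b' x (nRows C L (K.pos L P 1))
  have hn : nRows C L (K.pos L P 1) ≤ A C - 1 := min_le_left _ _
  have hz : IsCode C z := copy_code b b' d.col.2 hn
  refine ⟨newX L (K.pos L P 0) c z, K.pos L P 1, (col_spec d hz).1, hY, fun k hk => ?_⟩
  rw [e]
  refine quadBits_of_sig (fun v => ?_) hk
  exact newX_sig (ctxBits_of hS.2) d hz (fun n h1 _ => copy_match b b' x h1 hn) (Or.inl hlow)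
    (fun _ => ha _ rfl) (fun g => copy_slot b b' d.col.2.2.2 g fun _ => ha _ rfl)
    (fun g h' => copy_slot b b' d.col.2.2.2 g fun h'' => absurd h'' (by omega)) v

/-- Below every window there are some which differ from the given bits. -/
lemma rep_other (hC : CompleteStatement C) (hL : L₀ C ≤ L) (f : ℕ → Bits) :
    K.RepP L P fun R => ∃ k, k < A C - 1 ∧ quadBits L R k ≠ f k := by
  obtain ⟨X₁, hX₁, hcol⟩ := exists_plain hL
  have hA := AF_lt C
  unfold restRow at hA
  obtain ⟨-, hlast⟩ := bounds_M hL
  have hk0 : A C - 2 ≤ lastK C L :=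
    le_trans (bitRow_true C).ge (bitRow_spec C L true).1
  obtain ⟨hb1, hlo, hx2, hx3⟩ := band_col (L := L) (m := 1) (by norm_num)
    (by have := nine_le_M hL; omega) (show 2 * (A C - 2) < M L by omega)
  have hY1 : 1 < H L := by have := cuts_lt hL; omega
  set X₂ := M L * 1 + 2 * (A C - 2)
  have hX₂ : X₂ < H L := by omega
  let g₀ : Guest := fun a => atFirst 1 1 (K.dig L P) a
  refine Chain.RepP.step hC hL (Chain.repP_none (Φ := fun _ => True) fun _ _ => trivial)
    fun S _ _ => ?_
  have hsmall : vRow g₀ < A C - 1 := by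
    have := (gidx g₀).isLt
    unfold vRow
    omega
  by_cases hf : f (vRow g₀) self = false
  · refine ⟨X₂, 1, hX₂, hY1, vRow g₀, hsmall, fun h => ?_⟩
    have h' := congrFun h self
    rw [quadBits_vb, hf] at h'
    simp only at h'
    rw [vb_value hL hX₂ hY1, if_pos] at h'
    · rw [show lo L (pick L X₂ (self 0)) / 2 = A C - 2 by
        show lo L X₂ / 2 = _
        rw [hlo]; omega] at h'
      rw [congrFun (ones_row S (Or.inl rfl))] at h'
      exact Bool.noConfusion h'
    · refine ⟨⟨hb1, ?_⟩, ?_, fun h => ?_, fun h => ?_, fun i => ?_⟩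
      · show lo L X₂ % 2 = 0
        rw [hlo]; omega
      · show lo L X₂ / 2 ≤ _
        rw [hlo]; omega
      · simp [pick, self] at h
      · have := cuts_lt hL
        simp [pick, self] at h
        omega
      · show ((dig (K.dig L P) self i).val = 0 → atFirst 1 1 (K.dig L P) (zAx i) = true) ∧
          ((dig (K.dig L P) self i).val + 1 = base C.k → atFirst 1 1 (K.dig L P) (zAx i) = false)
        have := base_ge C.k
        fin_cases i <;> constructor <;> intro h <;>
          simp [dig, self, atFirst, zAx] at h ⊢ <;> omega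
  · refine ⟨X₁, 0, hX₁, H_pos L, vRow g₀, hsmall, fun h => ?_⟩
    have h' := congrFun h self
    rw [quadBits_vb] at h'
    simp only at h'
    rw [vb_value hL hX₁ (H_pos L), if_neg fun e => hcol _ _ e.1.1] at h'
    exact hf h'.symm

/-- The finite data at the last compared row. -/
lemma rep_eq_top (hC : CompleteStatement C)
    (d : EqData C L (K.pos L P 0) (K.pos L P 1) (K.dig L P) c)
    (htop : hi L (K.pos L P 1) = A C - 1) : K.Rep L P fun k => k < A C := by
  classical
  obtain ⟨hX, hY, e⟩ := K.win_eq d.hL P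
  set b := quadBits (L + 1) (K.win (L + 1) (K.up L P)) with hb
  set x := lo L (pick L (K.pos L P 0) c)
  set Y := K.pos L P 1
  have hA := A_ge C
  have hn : nRows C L Y = A C - 1 := by
    have := (rowsBelow_mono d.hL d.top).1
    have := (rowsBelow_mono d.hL d.top).2.2.1
    unfold nRows
    omega
  have hrange : hi L (Y - 1) = A C - 2 ∨ hi L (Y - 1) = A C - 1 := by
    obtain ⟨t, ht⟩ : ∃ t, Y = t + 1 := ⟨Y - 1, by have := d.top; omega⟩
    rw [ht, Nat.add_sub_cancel]
    rw [ht] at htop
    have e : (t + 1) / M L ^ 2 = t / M L ^ 2 + if M L ^ 2 ∣ t + 1 then 1 else 0 := Nat.succ_div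
    unfold hi at *
    split_ifs at e <;> omega
  have hhl : ∀ S : Win (St C), quadBits (L + 1) S (hi L (Y - 1)) = b (hi L (Y - 1)) := fun S =>
    (ones_row S hrange).trans (ones_row _ hrange).symm
  by_cases hm : ∀ k < A C - 1, ∀ g, b k g = x.testBit (32 * k + (gidx g).val + 2)
  · refine Chain.RepP.step hC d.hL (Chain.repP_none (Φ := fun _ => True) fun _ _ => trivial)
      fun S hS _ => ?_
    set b' := quadBits (L + 1) S
    set z := copyCol C b b' x (A C - 1)
    have hz : IsCode C z := copy_code b b' d.col.2 le_rfl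
    have hkeep : ∀ k, (k = A C - 2 ∨ k = A C - 1) → ∀ g,
        z.testBit (32 * k + (gidx g).val + 2) = x.testBit (32 * k + (gidx g).val + 2) := fun k hk g =>
      copy_slot b b' d.col.2.2.2 g fun _ => (ones_row S hk).trans (ones_row _ hk).symm
    have htab : table C z = table C x := by
      by_cases ho : ∀ g, x.testBit (32 * (A C - 1) + (gidx g).val + 2) = true
      · rw [table_of_match (L := L + 1) (K.valid (L + 1) (by have := d.hL; omega) (K.up L P))
            (x := x) fun k hk g => ?_,
          table_of_match hS.1 (x := z) fun k hk g => ?_]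
        · rcases Nat.lt_or_ge k (A C - 1) with hk' | hk'
          · exact (copy_match b b' x le_rfl le_rfl).2 hm k hk' g
          · obtain rfl : k = A C - 1 := by omega
            rw [hkeep _ (Or.inr rfl), ho g]
            exact congrFun (ones_row S (Or.inr rfl)) g
        · rcases Nat.lt_or_ge k (A C - 1) with hk' | hk'
          · exact hm k hk' g
          · obtain rfl : k = A C - 1 := by omega
            rw [ho g]
            exact congrFun (ones_row _ (Or.inr rfl)) g
      · push Not at ho
        obtain ⟨g, hg⟩ := ho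
        simp only [ne_eq, Bool.not_eq_true] at hg
        rw [table_false hg, table_false ((hkeep _ (Or.inr rfl) g).trans hg)]
    refine ⟨newX L (K.pos L P 0) c z, Y, (col_spec d hz).1, hY, fun k hk => ?_⟩
    rw [e]
    refine quadBits_of_sig (fun v => ?_) hk
    exact newX_sig (ctxBits_of hS.2) d hz
      (fun n h1 _ => copy_match b b' x (h1.trans hn.le) le_rfl) (Or.inr htab) (fun _ => hhl S)
      (fun g => hkeep _ hrange g) (fun g _ => hkeep _ (Or.inr htop) g) v
  · refine Chain.RepP.step hC d.hL (rep_other hC (L := L + 1) (K := K) (P := K.up L P)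
      (by have := d.hL; omega) fun k g => x.testBit (32 * k + (gidx g).val + 2))
      fun S hS ⟨k₀, hk₀, hne⟩ => ?_
    refine ⟨newX L (K.pos L P 0) c x, Y, (col_spec d d.col.2).1, hY, fun k hk => ?_⟩
    rw [e]
    refine quadBits_of_sig (fun v => ?_) hk
    refine newX_sig (ctxBits_of hS.2) d d.col.2 (fun n h1 h2 => ?_) (Or.inr rfl) (fun _ => hhl S)
      (fun _ => rfl) (fun _ _ => rfl) v
    obtain rfl : n = A C - 1 := by omega
    exact ⟨fun h => absurd (funext fun g => h k₀ hk₀ g) hne, fun h => absurd h hm⟩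

end

end Vale.Agent.P193.W4.Common.Minimal
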