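import Vale.Agent.P193.W4.Minimal.Move

/-!
P193, module W4 A, minimality: a window comparing a table column, seen from another column (after
P196/Tile/Minimal/EqColumn).
-/

noncomputable section

namespace Vale.Agent.P193.W4.Common.Minimal

variable {C : Cfg} {L X Y : ℕ} {Z : Digits C} {τ : ℕ → Bool} {b b' : ℕ → Bits}

/-! ### Rows of a comparing window -/

lemma rowsBelow_mono (hL : L₀ C ≤ L) {y : ℕ} (hy : 1 ≤ y) :
    rowsBelow L (y - 1) ≤ rowsBelow L y ∧ hi L (y - 1) ≤ hi L y ∧
      hi L y ≤ rowsBelow L (y - 1) ∧ (hi L (y - 1) = hi L y ∨ rowsBelow L y ≤ hi L y) := by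
  obtain ⟨t, rfl⟩ : ∃ t, y = t + 1 := ⟨y - 1, by omega⟩
  rw [Nat.add_sub_cancel]
  have hM := nine_le_M hL
  have hsq : 0 < M L ^ 2 := pow_pos (M_pos L) 2
  have hlt : M L + 1 < M L ^ 2 := by
    have := Nat.mul_le_mul_right (M L) (show 2 ≤ M L by omega)
    rw [← sq] at this
    omega
  obtain ⟨-, r2, r3, r4⟩ := rows_succ hL t
  have hmono : hi L t ≤ hi L (t + 1) := Nat.div_le_div_right (Nat.le_succ t)
  refine ⟨?_, hmono, ?_, ?_⟩
  · by_cases hw : IsWire L t
    · obtain ⟨-, e, -, -, e'⟩ := r2 hw; omega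
    · by_cases hw' : IsWire L (t + 1)
      · exact (r3 hw').1.ge
      · exact (r4 hw hw').1.ge
  · unfold rowsBelow
    split_ifs with h1 h2
    · exact le_of_eq (Nat.div_eq_of_lt (by omega))
    · rw [rowIdx_wire h2]
      have := (wire_near hL h2 (y' := t + 1) (Or.inr (Or.inr rfl))).1
      omega
    · have e : (t - M L + M L ^ 2) / M L ^ 2 = rowIdx L t + 1 := Nat.add_div_right _ hsq
      rw [← e]
      exact Nat.div_le_div_right (by omega)
  · by_cases h : M L ^ 2 ∣ t + 1
    · right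
      obtain ⟨a, ha⟩ := h
      have ea : hi L (t + 1) = a := by
        show (t + 1) / M L ^ 2 = a
        rw [ha, Nat.mul_div_cancel_left _ hsq]
      rw [ea]
      unfold rowsBelow
      have ha1 : 1 ≤ a := by
        rcases Nat.eq_zero_or_pos a with rfl | h0
        · simp at ha
        · exact h0
      split_ifs with h1 h2
      · exact Nat.zero_le _
      · rw [rowIdx_wire h2, ea]
      · have : rowIdx L (t + 1) < a := by
          unfold rowIdx
          rw [Nat.div_lt_iff_lt_mul hsq, Nat.mul_comm]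
          omega
        omega
    · left
      show t / M L ^ 2 = (t + 1) / M L ^ 2
      rw [Nat.succ_div, if_neg h, add_zero]

/-- What is known about a comparing window. -/
structure EqData (C : Cfg) (L X Y : ℕ) (Z : Digits C) (c : Bool) : Prop where
  hL : L₀ C ≤ L
  hX : X < H L
  hY : Y < H L
  col : IsZone C L (pick L X c) 4
  top : 1 ≤ Y
  hu : hi L Y ≤ A C - 1
  hl : hi L (Y - 1) ≤ hi L Y
  mid : ∀ i, (Z i).val ≠ 0

lemma eqData (hL : L₀ C ≤ L) (hX : X < H L) (hY : Y < H L)
    (he : EqWin (window L τ b X Y Z)) : ∃ c, EqData C L X Y Z c := by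
  obtain ⟨d, hd⟩ := he
  rw [window_apply, child_eqf τ _ _ _ _ (pick_lt hX _) (pick_lt hY _)] at hd
  by_cases h : IsZone C L (pick L X (d 0)) 4 ∧ M L ≤ pick L Y (d 1) ∧
      rowsBelow L (pick L Y (d 1)) ≤ A C - 1 ∧ MidDigits (dig Z d)
  swap
  · exact absurd (if_neg h) hd
  clear hd
  obtain ⟨hz, hM, hr, hm⟩ := h
  have htop : 1 ≤ Y := by
    by_contra h0
    obtain ⟨-, hnH, -, hrow, -, -, hM0⟩ := rows_zero hL
    obtain rfl : Y = 0 := by omega
    cases hd : d 1
    · rw [hd, pick, if_neg (by simp)] at hM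
      omega
    · rw [hd, pick, if_pos rfl, pred'_zero] at hr hM
      rw [rowsBelow, if_neg (by omega), if_neg hnH] at hr
      have : A C ≤ lastK C L := by
        unfold lastK
        exact (Nat.le_add_right _ _).trans (Nat.le_add_right _ _)
      omega
  obtain ⟨m1, m2, m3, -⟩ := rowsBelow_mono hL htop
  refine ⟨d 0, hL, hX, hY, hz, htop, ?_, m2, fun i => ?_⟩
  · refine m3.trans ?_
    cases hd : d 1
    · rw [hd, pick, if_neg (by simp)] at hr
      exact m1.trans hr
    · rw [hd, pick_true hY (by omega)] at hr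
      exact hr
  · intro h0
    have h1 := hm i
    cases hd : d (zAx i)
    · simp [dig, hd, h0] at h1
    · simp only [dig, hd, if_true] at h1
      rcases predDigit_cases (Z i) with ⟨-, e⟩ | ⟨e, -⟩ <;> omega

variable {c : Bool}

lemma EqData.Y0 (d : EqData C L X Y Z c) : Y ≠ 0 := by have := d.top; omega

lemma EqData.X0 (d : EqData C L X Y Z c) : X ≠ 0 :=
  band_X_ne_zero d.hL d.col.1 (by norm_num) (by norm_num)

lemma par_interior (hX : X ≠ 0) (hY : Y ≠ 0) (hZ : ∀ i, (Z i).val ≠ 0) (g : Guest) :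
    par X Y Z g = self := by
  funext a
  unfold par self
  fin_cases a <;> simp [atFirst, hX, hY, hZ]

lemma guestBits_none (b : ℕ → Bits) : guestBits self b = b := by
  funext k g
  simp [guestBits, self]

lemma EqData.yCases (d : EqData C L X Y Z c) (e : Bool) :
    pick L Y e = Y ∨ pick L Y e = Y - 1 := by
  cases e
  · exact Or.inl rfl
  · exact Or.inr (pick_true d.hY d.Y0)

/-- The number of compared rows which may differ. -/
def nRows (C : Cfg) (L Y : ℕ) : ℕ := min (A C - 1) (rowsBelow L Y)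

lemma EqData.rows (d : EqData C L X Y Z c) (e : Bool) :
    (rowsBelow L (pick L Y e) ≤ A C - 1 → rowsBelow L (pick L Y e) ≤ nRows C L Y) ∧
      hi L Y ≤ rowsBelow L (pick L Y e) ∧
      (hi L (pick L Y e) = hi L (Y - 1) ∨
        (hi L (pick L Y e) = hi L Y ∧ nRows C L Y ≤ hi L Y)) := by
  obtain ⟨m1, m2, m3, m4⟩ := rowsBelow_mono d.hL d.top
  unfold nRows
  rcases d.yCases e with h | h <;> rw [h]
  · refine ⟨fun h => by omega, by omega, ?_⟩
    rcases m4 with h | h
    · exact Or.inl h.symm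
    · exact Or.inr ⟨rfl, by omega⟩
  · exact ⟨fun h => by omega, m3, Or.inl rfl⟩

/-! ### Another column -/

/-- The low parts of table columns. -/
def IsCode (C : Cfg) (z : ℕ) : Prop := z % 4 = 2 ∧ 2 ^ (B C - 1) ≤ z ∧ z < 2 ^ B C

/-- The window with the special column at the low part `z`. -/
def newX (L X : ℕ) (c : Bool) (z : ℕ) : ℕ := shift X (pick L X c) (M L * 4 + z)

lemma pow_B (hL : L₀ C ≤ L) :
    2 * A C + 2 < 2 ^ (B C - 1) ∧ 2 ^ B C + 1 < M L ∧ 4 ∣ 2 ^ B C := by
  have h0 := (le_L₀ C).trans hL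
  have hA := A_ge C
  have hB : B C = 32 * A C + 2 := rfl
  have h1 : 2 ^ (B C + 1) ≤ 2 ^ L := Nat.pow_le_pow_right (by norm_num) (by omega)
  have h2 : 32 * A C < 2 ^ (32 * A C) := Nat.lt_two_pow_self
  have h3 : (1 : ℕ) < 2 ^ B C := Nat.one_lt_two_pow (by omega)
  have h4 : 2 ^ (B C - 1) = 2 * 2 ^ (32 * A C) := by
    rw [← pow_succ', show B C - 1 = 32 * A C + 1 by omega]
  rw [pow_succ] at h1
  refine ⟨by omega, ?_, Nat.pow_dvd_pow 2 (show 2 ≤ B C by omega)⟩
  show _ < 2 ^ L
  omega

lemma testBit_near {a a' z z' : ℕ} (h4 : a % 4 = a' % 4) (hz : a / 4 = z / 4)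
    (hz' : a' / 4 = z' / 4) {n : ℕ} (h : 2 ≤ n → z.testBit n = z'.testBit n) :
    a.testBit n = a'.testBit n := by
  match n with
  | 0 => rw [Nat.testBit_zero, Nat.testBit_zero]; congr 1; exact propext (by omega)
  | 1 =>
    rw [Nat.testBit_succ, Nat.testBit_succ, Nat.testBit_zero, Nat.testBit_zero]
    congr 1; exact propext (by omega)
  | m + 2 =>
    have key : ∀ c : ℕ, c.testBit (m + 2) = (c / 4).testBit m := fun c => by
      rw [Nat.testBit_succ, Nat.testBit_succ, Nat.div_div_eq_div_mul]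
    rw [key, key, hz, hz', ← key, ← key]
    exact h (by omega)

/-- The tiles at the new column. -/
lemma col_spec (d : EqData C L X Y Z c) {z : ℕ} (hz : IsCode C z) :
    newX L X c z < H L ∧ newX L X c z ≠ 0 ∧ ∀ e,
      (IsZone C L (pick L (newX L X c z) e) 4 ↔ IsZone C L (pick L X e) 4) ∧
      (IsZone C L (pick L X e) 4 → lo L (pick L (newX L X c z) e) = z ∧
        lo L (pick L X e) = lo L (pick L X c)) ∧
      IsCol L (pick L (newX L X c z) e) 4 ∧ IsCol L (pick L X e) 4 ∧
      (lo L (pick L (newX L X c z) e) % 4 = lo L (pick L X e) % 4 ∧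
        lo L (pick L (newX L X c z) e) / 4 = z / 4 ∧
        lo L (pick L X e) / 4 = lo L (pick L X c) / 4 ∧
        1 ≤ lo L (pick L X e) ∧ lo L (pick L X e) + 1 < M L ∧
        1 ≤ lo L (pick L (newX L X c z) e) ∧ lo L (pick L (newX L X c z) e) + 1 < M L ∧
        2 * A C < lo L (pick L X e) ∧ 2 * A C < lo L (pick L (newX L X c z) e)) ∧
      (pick L X e ≠ 0 ∧ pick L X e ≤ cutX L ∧ pick L (newX L X c z) e ≠ 0 ∧
        pick L (newX L X c z) e ≤ cutX L) := by
  obtain ⟨hL, hX, -, hc, -, -, -, -⟩ := d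
  obtain ⟨p1, p2, p3⟩ := pow_B hL
  obtain ⟨hz4, hz1, hz2⟩ := hz
  set x := pick L X c with hx
  have hM := nine_le_M hL
  obtain ⟨hc', hlo', h2', h3'⟩ := band_col (L := L) (m := 4) (by norm_num) (by omega)
    (show z < M L by omega)
  obtain ⟨h1, h2, h3, h4⟩ := col_bounds hL hc.1 (by norm_num) (by norm_num)
  set x' := M L * 4 + z
  have ha := hc.2.1
  have ha1 := hc.2.2.1
  have ha2 := hc.2.2.2
  obtain ⟨hlt, hne, hxc, hall⟩ := shift_spec hX (b := c) (x := x) rfl h1 h2
    (by omega : 1 ≤ x') h2'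
  refine ⟨hlt, hne, fun e => ?_⟩
  have he := hall e
  change pick L (newX L X c z) e + x = pick L X e + x' at he
  have n1 : pick L X e + (if e then 1 else 0) = x + (if c then 1 else 0) :=
    near hX (b := c) (x := x) rfl h1 h2 e
  have hij : (if e then 1 else 0) ≤ 1 ∧ (if c then 1 else 0) ≤ 1 := by
    constructor <;> split_ifs <;> omega
  obtain ⟨o1, o2, o3⟩ := parts_near (L := L) (x := x) (a := lo L x) (y := pick L X e) rfl
    (by omega) (by omega) (by omega)
  obtain ⟨w1, w2, w3⟩ := parts_near (L := L) (x := x') (a := z) (y := pick L (newX L X c z) e)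
    hlo' (by omega) (by omega) (by omega)
  rw [hc.1.1] at o2
  rw [hc.1.2] at o1
  rw [hc'.1] at w2
  rw [hc'.2] at w1
  have hcut : cutX L = 7 * M L := rfl
  refine ⟨⟨fun h => ?_, fun h => ?_⟩, fun h => ?_, ⟨w2, w1⟩, ⟨o2, o1⟩,
    ⟨by omega, by omega, by omega, by omega, by omega, by omega, by omega, by omega, by omega⟩,
    ⟨by omega, by omega, by omega, by omega⟩⟩
  · have := h.2.1
    exact ⟨⟨o2, o1⟩, by omega, by omega, by omega⟩
  · have := h.2.1
    exact ⟨⟨w2, w1⟩, by omega, by omega, by omega⟩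
  · have := h.2.1
    exact ⟨by omega, by omega⟩

/-- The comparisons of the moved window. -/
lemma newX_eq (d : EqData C L X Y Z c) {z : ℕ} (hz : IsCode C z)
    (hm : ∀ n, n ≤ nRows C L Y → hi L Y ≤ n →
      ((∀ k < n, ∀ g, b' k g = z.testBit (32 * k + (gidx g).val + 2)) ↔
        ∀ k < n, ∀ g, b k g = (lo L (pick L X c)).testBit (32 * k + (gidx g).val + 2)))
    (v : Guest) :
    (window L τ b' (newX L X c z) Y Z v).fin.eq = (window L τ b X Y Z v).fin.eq := by
  obtain ⟨hlt, hne, hall⟩ := col_spec d hz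
  obtain ⟨hiff, hlo, -⟩ := hall (v 0)
  rw [window_apply, window_apply, child_eqf τ _ _ _ _ (pick_lt hlt _) (pick_lt d.hY _),
    child_eqf τ _ _ _ _ (pick_lt d.hX _) (pick_lt d.hY _), par_interior hne d.Y0 d.mid,
    par_interior d.X0 d.Y0 d.mid, guestBits_none, guestBits_none]
  by_cases h : IsZone C L (pick L X (v 0)) 4 ∧ M L ≤ pick L Y (v 1) ∧
      rowsBelow L (pick L Y (v 1)) ≤ A C - 1 ∧ MidDigits (dig Z v)
  · refine (if_pos ⟨hiff.2 h.1, h.2⟩).trans ((congrArg some ?_).trans (if_pos h).symm)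
    refine decide_eq_decide.2 ?_
    obtain ⟨e1, e2⟩ := hlo h.1
    obtain ⟨r1, r2, -⟩ := d.rows (v 1)
    simp only [zoneMatch, decide_eq_true_iff, e1, e2]
    exact hm _ (r1 h.2.2.1) r2
  · exact (if_neg fun e => h ⟨hiff.1 e.1, e.2⟩).trans (if_neg h).symm

/-- The table values of the moved window. -/
lemma newX_v (d : EqData C L X Y Z c) {z : ℕ} (hz : IsCode C z)
    (hv : hi L Y < A C - 1 ∨ τ z = τ (lo L (pick L X c))) (v : Guest) :
    (window L τ b' (newX L X c z) Y Z v).fin.v = (window L τ b X Y Z v).fin.v := by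
  obtain ⟨hlt, -, hall⟩ := col_spec d hz
  obtain ⟨hiff, hlo, c1, c2, -⟩ := hall (v 0)
  have n1 : ¬ IsZone C L (pick L (newX L X c z) (v 0)) 6 := fun h => by
    have := h.1.2.symm.trans c1.2; omega
  have n2 : ¬ IsZone C L (pick L X (v 0)) 6 := fun h => by
    have := h.1.2.symm.trans c2.2; omega
  rw [window_apply, window_apply, child_v τ _ _ _ _ (pick_lt hlt _) (pick_lt d.hY _),
    child_v τ _ _ _ _ (pick_lt d.hX _) (pick_lt d.hY _)]
  by_cases h : IsZone C L (pick L X (v 0)) 4 ∧ A C - 1 ≤ hi L (pick L Y (v 1))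
  · refine (if_pos (Or.inl ⟨hiff.2 h.1, h.2⟩)).trans (Eq.trans ?_ (if_pos (Or.inl h)).symm)
    obtain ⟨e1, e2⟩ := hlo h.1
    rw [e1, e2]
    refine hv.resolve_left fun hlt => ?_
    have := (d.rows (v 1)).2.2
    have := d.hl
    omega
  · exact (if_neg fun e => e.elim (fun e => h ⟨hiff.1 e.1, e.2⟩) n1).trans
      (if_neg fun e => e.elim h n2).symm

lemma child_u_zero {x y : ℕ} (b : ℕ → Bits) (hx : x < H L) (hy : y < H L) (h : IsCol L x 4) :
    (child L τ b x y Z).u = 0 := by
  rw [child_u τ _ _ _ _ hx hy, if_neg]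
  exact fun e => by
    have := e.1.2.symm.trans h.2
    omega

/-- The numbers of the moved window. -/
lemma newX_num (hb : CtxBits C L b b') (d : EqData C L X Y Z c) {z : ℕ} (hz : IsCode C z) {k : ℕ}
    (hk : A C ≤ k)
    (hbit : (k - A C) % T C = 0 → 2 ≤ (k - A C) / T C →
      z.testBit ((k - A C) / T C) = (lo L (pick L X c)).testBit ((k - A C) / T C)) :
    quadBits L (window L τ b' (newX L X c z) Y Z) k = quadBits L (window L τ b X Y Z) k := by
  obtain ⟨hlt, -, hall⟩ := col_spec d hz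
  funext v
  obtain ⟨-, -, c1, c2, ⟨l4, ln, lo', -⟩, -⟩ := hall (v 0)
  have hw : (window L τ b' (newX L X c z) Y Z v).w = (window L τ b X Y Z v).w :=
    (congrArg (fun c => c.2.2.2) (sameCtx_window hb τ X Y (newX L X c z) Y Z v v (ZEq.refl v))).symm
  show enc L (window L τ b' (newX L X c z) Y Z v) k = enc L (window L τ b X Y Z v) k
  unfold enc
  rw [if_neg (by omega), if_neg (by omega)]
  refine congrArg₂ (fun p q : Bool => p && q) rfl ?_
  have ex : (window L τ b' (newX L X c z) Y Z v).x = pick L (newX L X c z) (v 0) :=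
    child_x τ _ _ _ _ (pick_lt hlt _)
  have ex' : (window L τ b X Y Z v).x = pick L X (v 0) := child_x τ _ _ _ _ (pick_lt d.hX _)
  have ey : (window L τ b' (newX L X c z) Y Z v).y = (window L τ b X Y Z v).y :=
    (child_y τ _ _ _ _ (pick_lt d.hY _)).trans (child_y τ _ _ _ _ (pick_lt d.hY _)).symm
  have eu : (window L τ b' (newX L X c z) Y Z v).u = (window L τ b X Y Z v).u :=
    (child_u_zero _ (pick_lt hlt _) (pick_lt d.hY _) c1).trans
      (child_u_zero _ (pick_lt d.hX _) (pick_lt d.hY _) c2).symm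
  rcases h : (k - A C) % T C with _ | _ | _ | _ | _ | _ | _ | n
  · simp only [num, ex, ex']
    exact testBit_near l4 ln lo' fun h2 => hbit h h2
  · simp only [num, ex, ex', c1.2, c2.2]
  · simp only [num, ex, ex', c1.1, c2.1]
  · simp only [num, ey]
  · simp only [num, ey]
  · simp only [num, ey]
  · simp only [num, eu]
  · simp only [num, hw]

/-- Claims of tiles in two columns with the same fixed bits. -/
lemma claims_near {t t' : St C} (hy : t'.y = t.y) (hu : t'.u = t.u) (hc : ctx t' = ctx t)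
    (hm : mid L t'.x = mid L t.x) (hh : hi L t'.x = hi L t.x)
    (h4 : lo L t'.x % 4 = lo L t.x % 4)
    (hb : 1 ≤ lo L t.x ∧ lo L t.x + 1 < M L ∧ 1 ≤ lo L t'.x ∧ lo L t'.x + 1 < M L ∧
      2 * A C < lo L t.x ∧ 2 * A C < lo L t'.x)
    (hz : (lo L t'.x % 4 = 2 ∧ 2 ^ (B C - 1) ≤ lo L t'.x ∧ lo L t'.x < 2 ^ B C) ↔
      (lo L t.x % 4 = 2 ∧ 2 ^ (B C - 1) ≤ lo L t.x ∧ lo L t.x < 2 ^ B C))
    (hlt : hi L t.y < A C)
    (hq : ∀ g : Guest, (lo L t'.x).testBit (32 * hi L t.y + (gidx g).val + 2) =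
      (lo L t.x).testBit (32 * hi L t.y + (gidx g).val + 2)) :
    claims L t' = claims L t := by
  have hYB := A_lt_YB C
  have e : min (hi L t.y) (YB C) = hi L t.y := by omega
  simp only [ctx, Prod.mk.injEq] at hc
  obtain ⟨k1, k2, k3, k4⟩ := hc
  simp only [claims, hy, hu, k1, k2, k3, k4, hm, hh]
  congr 1
  · congr 1
    · exact decide_eq_decide.2 (by omega)
    · exact decide_eq_decide.2 (by omega)
    · exact decide_eq_decide.2 (by omega)
    · exact decide_eq_decide.2 hz
  · congr 1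
    · exact decide_eq_decide.2 (by omega)
    · funext g
      rw [e, hq g]
    · rw [e, decide_eq_false (by omega : ¬ A C ≤ hi L t.y)]
      simp

/-- The finite data of the moved window. -/
lemma newX_sig (hb : CtxBits C L b b') (d : EqData C L X Y Z c) {z : ℕ} (hz : IsCode C z)
    (hm : ∀ n, n ≤ nRows C L Y → hi L Y ≤ n →
      ((∀ k < n, ∀ g, b' k g = z.testBit (32 * k + (gidx g).val + 2)) ↔
        ∀ k < n, ∀ g, b k g = (lo L (pick L X c)).testBit (32 * k + (gidx g).val + 2)))
    (hv : hi L Y < A C - 1 ∨ τ z = τ (lo L (pick L X c)))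
    (hh : IsLive C L Y ∨ IsLive C L (Y - 1) → b' (hi L (Y - 1)) = b (hi L (Y - 1)))
    (hq : ∀ g : Guest, z.testBit (32 * hi L (Y - 1) + (gidx g).val + 2) =
      (lo L (pick L X c)).testBit (32 * hi L (Y - 1) + (gidx g).val + 2))
    (hq' : ∀ g : Guest, nRows C L Y ≤ hi L Y →
      z.testBit (32 * hi L Y + (gidx g).val + 2) =
      (lo L (pick L X c)).testBit (32 * hi L Y + (gidx g).val + 2)) (v : Guest) :
    sig L (window L τ b' (newX L X c z) Y Z) v = sig L (window L τ b X Y Z) v := by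
  obtain ⟨hlt, hne, hall⟩ := col_spec d hz
  obtain ⟨hiff, hlo, c1, c2, ⟨l4, ln, lo', b1, b2, b1', b2', big, big'⟩,
    x0, xcut, x0', xcut'⟩ := hall (v 0)
  have hcases := d.rows (v 1)
  have hu := d.hu
  have hl := d.hl
  have hA := A_ge C
  have hsmall : hi L (pick L Y (v 1)) < A C := by omega
  have hctx : ctx (window L τ b' (newX L X c z) Y Z v) = ctx (window L τ b X Y Z v) :=
    (sameCtx_window hb τ X Y (newX L X c z) Y Z v v (ZEq.refl v)).symm
  have px := pick_lt d.hX (v 0)
  have px' := pick_lt hlt (v 0)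
  have py := pick_lt d.hY (v 1)
  refine Prod.ext ?_ ?_
  · show (window L τ b' (newX L X c z) Y Z v).fin = (window L τ b X Y Z v).fin
    have ncol : ∀ m, m ≠ 4 → ¬ IsCol L (pick L (newX L X c z) (v 0)) m := fun m hm h =>
      hm (h.2.symm.trans c1.2)
    have ncol' : ∀ m, m ≠ 4 → ¬ IsCol L (pick L X (v 0)) m := fun m hm h =>
      hm (h.2.symm.trans c2.2)
    have e_h : (window L τ b' (newX L X c z) Y Z v).fin.h = (window L τ b X Y Z v).fin.h := by
      funext g
      rw [h_value d.hL hlt d.hY, h_value d.hL d.hX d.hY, slot_moveX d.X0 hne]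
      have ncut : ¬ cutX L < pick L (newX L X c z) (v 0) := by omega
      have ncut' : ¬ cutX L < pick L X (v 0) := by omega
      simp only [ShownH, x0, x0', ncut, ncut', false_implies, true_and]
      split_ifs with hlive
      · have hlive' : IsLive C L (pick L Y (v 1)) := hlive.1
        have e : hi L (pick L Y (v 1)) = hi L (Y - 1) := by
          rcases hcases.2.2 with e | ⟨e, -⟩
          · exact e
          · rcases d.yCases (v 1) with e' | e'
            · rw [e'] at hlive' ⊢
              exact ((wire_near d.hL hlive'.1 (y' := Y - 1)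
                (Or.inr (Or.inl (by have := d.top; omega)))).1).symm
            · rw [e']
        rw [e]
        refine congrFun (hh ?_) _
        rcases d.yCases (v 1) with e' | e'
        · exact Or.inl (e' ▸ hlive')
        · exact Or.inr (e' ▸ hlive')
      · rfl
    have e_vb : (window L τ b' (newX L X c z) Y Z v).fin.vb = (window L τ b X Y Z v).fin.vb := by
      funext g
      rw [vb_value d.hL hlt d.hY, vb_value d.hL d.hX d.hY,
        if_neg fun h => ncol 1 (by norm_num) h.1.1, if_neg fun h => ncol' 1 (by norm_num) h.1.1]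
    have e_c : (window L τ b' (newX L X c z) Y Z v).fin.carry =
        (window L τ b X Y Z v).fin.carry := by
      rw [window_apply, window_apply, child_carry τ _ _ _ _ px' py, child_carry τ _ _ _ _ px py,
        if_neg fun h => ncol 3 (by norm_num) h.1, if_neg fun h => ncol' 3 (by norm_num) h.1]
    have e_l : (window L τ b' (newX L X c z) Y Z v).fin.look =
        (window L τ b X Y Z v).fin.look := by
      rw [window_apply, window_apply, child_look τ _ _ _ _ px' py, child_look τ _ _ _ _ px py,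
        if_neg fun h => ncol 6 (by norm_num) h.1.1, if_neg fun h => ncol' 6 (by norm_num) h.1.1]
    have e_live : (window L τ b' (newX L X c z) Y Z v).fin.live =
        (window L τ b X Y Z v).fin.live := by
      rw [window_apply, window_apply, child_live τ _ _ _ _ py, child_live τ _ _ _ _ py]
    have e_v := newX_v (b := b) (b' := b') d hz hv v
    have e_eq := newX_eq (τ := τ) d hz hm v
    simp only [ctx, Prod.mk.injEq] at hctx
    obtain ⟨-, e_pf, e_on, -⟩ := hctx
    generalize (window L τ b' (newX L X c z) Y Z v).fin = f' at *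
    generalize (window L τ b X Y Z v).fin = f at *
    cases f'
    cases f
    simp only at e_h e_vb e_c e_l e_live e_v e_eq e_pf e_on
    subst e_h e_vb e_c e_l e_live e_v e_eq e_pf e_on
    rfl
  · show claims L (window L τ b' (newX L X c z) Y Z v) = claims L (window L τ b X Y Z v)
    have ex : (window L τ b' (newX L X c z) Y Z v).x = pick L (newX L X c z) (v 0) :=
      child_x τ _ _ _ _ px'
    have ex' : (window L τ b X Y Z v).x = pick L X (v 0) := child_x τ _ _ _ _ px
    have ey : ∀ (b₀ : ℕ → Bits) X₀, (window L τ b₀ X₀ Y Z v).y = pick L Y (v 1) := fun _ _ =>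
      child_y τ _ _ _ _ py
    refine claims_near ((ey _ _).trans (ey _ _).symm)
      ((child_u_zero _ px' py c1).trans (child_u_zero _ px py c2).symm) hctx
      ?_ ?_ ?_ ?_ ?_ ?_ ?_ <;> simp only [ex, ex', ey]
    · rw [c1.2, c2.2]
    · rw [c1.1, c2.1]
    · exact l4
    · exact ⟨b1, b2, b1', b2', big, big'⟩
    · exact ⟨fun h => (hiff.1 ⟨c1, h⟩).2, fun h => (hiff.2 ⟨c2, h⟩).2⟩
    · exact hsmall
    · intro g
      refine testBit_near l4 ln lo' fun _ => ?_
      rcases hcases.2.2 with e | ⟨e, e'⟩ <;> rw [e]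
      · exact hq g
      · exact hq' g e'

end Vale.Agent.P193.W4.Common.Minimal
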