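import Vale.Agent.P193.W4.Minimal.Dep

/-!
P193, module W4 A, minimality: windows below an arbitrary window of a higher level having the data
of the real one there (after P196/Tile/Minimal/Gen).

Positions in the plane are free, the digits of the counters are those of the real window.
-/

noncomputable section

namespace Vale.Agent.P193.W4.Common.Minimal

/-- Tilings of all levels, each made of the children of the next. -/
structure Chain (C : Cfg) where
  tiles : ℕ → Z5 → St C
  off : ℕ → Z5
  valid : ∀ L, L₀ C ≤ L → ValidTiling L (tiles L)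
  parent : ∀ L, L₀ C ≤ L → IsParent L (tiles L) (tiles (L + 1)) (off L)

variable {C : Cfg}

lemma extent_pos (L : ℕ) (a : Fin 5) : 0 < extent C L a := by
  have := H_pos L
  have := base_ge C.k
  fin_cases a <;> simp [extent] <;> omega

lemma Chain.exists_of_desub (hD : DesubStatement C) {c : Z5 → St C}
    (hc : ValidTiling (L₀ C) c) : ∃ K : Chain C, K.tiles (L₀ C) = c := by
  have step : ∀ L c, ∃ oc : Z5 × (Z5 → St C), L₀ C ≤ L → ValidTiling L c →
      IsParent L c oc.2 oc.1 := fun L c => by
    by_cases h : L₀ C ≤ L ∧ ValidTiling L c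
    · obtain ⟨oc, ⟨-, hp⟩, -⟩ := hD L h.1 c h.2
      exact ⟨oc, fun _ _ => hp⟩
    · exact ⟨(0, c), fun h1 h2 => absurd ⟨h1, h2⟩ h⟩
  choose f hf using step
  let t : ℕ → Z5 → St C := fun n => Nat.rec c (fun m cm => (f (L₀ C + m) cm).2) n
  have ht : ∀ n, ValidTiling (L₀ C + n) (t n) := fun n => by
    induction n with
    | zero => exact hc
    | succ n ih => exact (hf _ _ (Nat.le_add_right _ _) ih).1
  refine ⟨⟨fun L => t (L - L₀ C), fun L => (f L (t (L - L₀ C))).1, fun L hL => ?_, fun L hL => ?_⟩,
    by simp [t]⟩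
  · have := ht (L - L₀ C)
    rwa [Nat.add_sub_cancel' hL] at this
  · have h1 := hf L (t (L - L₀ C)) hL (by
      have := ht (L - L₀ C)
      rwa [Nat.add_sub_cancel' hL] at this)
    have e : t (L + 1 - L₀ C) = (f L (t (L - L₀ C))).2 := by
      rw [show L + 1 - L₀ C = L - L₀ C + 1 by omega]
      show (f (L₀ C + (L - L₀ C)) _).2 = _
      rw [Nat.add_sub_cancel' hL]
    rw [e]
    exact h1

section

variable (K : Chain C)

/-- The parent of a position. -/
def Chain.up (L : ℕ) (P : Z5) : Z5 := fun a => (P a - K.off L a) / extent C L a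

/-- The counter digits of a position. -/
def Chain.dig (L : ℕ) (P : Z5) : Digits C := fun i =>
  ⟨((P (zAx i) - K.off L (zAx i)) % (base C.k : ℤ)).toNat, by
    have := base_ge C.k
    have h := Int.emod_lt_of_pos (P (zAx i) - K.off L (zAx i))
      (show (0 : ℤ) < base C.k by omega)
    omega⟩

/-- The plane position of a position in its parent. -/
def Chain.pos (L : ℕ) (P : Z5) (a : Fin 5) : ℕ :=
  ((P a - K.off L a) % (extent C L a)).toNat

/-- The window of the chain at a position. -/
def Chain.win (L : ℕ) (P : Z5) : Win (St C) := quadAt (K.tiles L) P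

/-- The position `d` levels up. -/
def Chain.anc : ℕ → ℕ → Z5 → Z5
  | _, 0, P => P
  | L, d + 1, P => Chain.anc (L + 1) d (K.up L P)

/-- The window at a position is made of children of that of the parent. -/
theorem Chain.win_eq {L : ℕ} (hL : L₀ C ≤ L) (P : Z5) : K.pos L P 0 < H L ∧ K.pos L P 1 < H L ∧
    K.win L P = window L (table C) (quadBits (L + 1) (K.win (L + 1) (K.up L P)))
      (K.pos L P 0) (K.pos L P 1) (K.dig L P) := by
  have hb : ∀ a, 0 ≤ (P a - K.off L a) % extent C L a ∧
      (P a - K.off L a) % extent C L a < extent C L a := fun a =>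
    ⟨Int.emod_nonneg _ (extent_pos L a).ne', Int.emod_lt_of_pos _ (extent_pos L a)⟩
  have h0 : K.pos L P 0 < H L := by
    have := hb 0
    simp only [extent, Matrix.cons_val_zero] at this
    simp only [Chain.pos, extent, Matrix.cons_val_zero]
    omega
  have h1 : K.pos L P 1 < H L := by
    have := hb 1
    simp only [extent, Matrix.cons_val_one, Matrix.cons_val_zero] at this
    simp only [Chain.pos, extent, Matrix.cons_val_one, Matrix.cons_val_zero]
    omega
  refine ⟨h0, h1, ?_⟩
  rw [Chain.win, Chain.win, ← quadAt_place hL (K.parent L hL) _ h0 h1]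
  congr 1
  funext a
  have e : K.off L a + extent C L a * ((P a - K.off L a) / extent C L a) +
      (P a - K.off L a) % extent C L a = P a := by
    have := Int.mul_ediv_add_emod (P a - K.off L a) (extent C L a)
    omega
  have hba := hb a
  fin_cases a <;>
    simp [place, Chain.up, Chain.pos, Chain.dig, extent, zAx] at e hba ⊢ <;> omega

/-- A window which may replace the real one as an ancestor. -/
def Chain.Good (L : ℕ) (P : Z5) (T : Win (St C)) : Prop := Valid L T ∧ SameCtx (K.win L P) T

/-- `w` occurs `d` levels below `T`, with the counter digits above the position `P`. -/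
def Chain.Below : ℕ → ℕ → Z5 → Win (St C) → Win (St C) → Prop
  | _, 0, _, T, w => T = w
  | L, d + 1, P, T, w => ∃ S, Chain.Below (L + 1) d (K.up L P) T S ∧ ∃ X Y, X < H L ∧ Y < H L ∧
      window L (table C) (quadBits (L + 1) S) X Y (K.dig L P) = w

/-- Below every window like the real one of some higher level there is one with the property. -/
def Chain.RepP (L : ℕ) (P : Z5) (Φ : Win (St C) → Prop) : Prop :=
  ∃ d, ∀ T, K.Good (L + d) (K.anc L d P) T → ∃ R, K.Below L d P T R ∧ Φ R

/-- Below every window like the real one of some higher level there is one showing the bits of the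
real one on the rows `Q`. -/
def Chain.Rep (L : ℕ) (P : Z5) (Q : ℕ → Prop) : Prop :=
  K.RepP L P fun R => Agree L (K.win L P) R Q

/-- The real window occurs below every window like the real one of some higher level. -/
def Chain.Occ (L : ℕ) (P : Z5) : Prop := K.RepP L P fun R => R = K.win L P

variable {K} {L : ℕ} {P : Z5}

lemma Chain.good_self (hL : L₀ C ≤ L) : K.Good L P (K.win L P) :=
  ⟨K.valid L hL P, sameCtx_self (K.valid L hL P)⟩

/-- Children of good windows are good. -/
lemma Chain.good_child (hC : CompleteStatement C) (hL : L₀ C ≤ L) {S : Win (St C)}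
    (hS : K.Good (L + 1) (K.up L P) S) {X Y : ℕ} (hX : X < H L) (hY : Y < H L) :
    K.Good L P (window L (table C) (quadBits (L + 1) S) X Y (K.dig L P)) := by
  refine ⟨hC L hL S hS.1 X Y _ hX hY, ?_⟩
  rw [(K.win_eq hL P).2.2]
  exact sameCtx_window (ctxBits_of hS.2) _ _ _ _ _ _

lemma Chain.below_good (hC : CompleteStatement C) : ∀ {d L : ℕ} {P : Z5} {T w : Win (St C)},
    L₀ C ≤ L → K.Good (L + d) (K.anc L d P) T → K.Below L d P T w → K.Good L P w
  | 0, _, _, _, _, _, h, rfl => h
  | d + 1, L, P, T, w, hL, h, ⟨S, hS, X, Y, hX, hY, hw⟩ => by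
    have hg : K.Good (L + 1) (K.up L P) S := Chain.below_good hC (by omega)
      (by rw [show L + 1 + d = L + (d + 1) by omega]; exact h) hS
    rw [← hw]
    exact Chain.good_child hC hL hg hX hY

lemma Chain.repP_none {Φ : Win (St C) → Prop} (hΦ : ∀ T, K.Good L P T → Φ T) : K.RepP L P Φ :=
  ⟨0, fun T hT => ⟨T, rfl, hΦ T hT⟩⟩

lemma Chain.RepP.mono {Φ Ψ : Win (St C) → Prop} (h : K.RepP L P Φ) (hΦ : ∀ R, Φ R → Ψ R) :
    K.RepP L P Ψ :=
  h.imp fun _ hd T hT => (hd T hT).imp fun _ hR => ⟨hR.1, hΦ _ hR.2⟩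

lemma Chain.Rep.mono {Q Q' : ℕ → Prop} (h : K.Rep L P Q) (hQ : ∀ k, Q' k → Q k) :
    K.Rep L P Q' :=
  Chain.RepP.mono h fun _ hR k hk => hR k (hQ k hk)

/-- One level down. -/
lemma Chain.RepP.step (hC : CompleteStatement C) (hL : L₀ C ≤ L)
    {Φ Ψ : Win (St C) → Prop} (h : K.RepP (L + 1) (K.up L P) Φ)
    (hc : ∀ S, K.Good (L + 1) (K.up L P) S → Φ S → ∃ X Y, X < H L ∧ Y < H L ∧
      Ψ (window L (table C) (quadBits (L + 1) S) X Y (K.dig L P))) : K.RepP L P Ψ := by
  obtain ⟨d, hd⟩ := h
  refine ⟨d + 1, fun T hT => ?_⟩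
  have hT' : K.Good (L + 1 + d) (K.anc (L + 1) d (K.up L P)) T := by
    rw [show L + 1 + d = L + (d + 1) by omega]
    exact hT
  obtain ⟨S, hg, ha⟩ := hd T hT'
  obtain ⟨X, Y, hX, hY, hw⟩ := hc S (Chain.below_good hC (by omega) hT' hg) ha
  exact ⟨_, ⟨S, hg, X, Y, hX, hY, rfl⟩, hw⟩

/-- The position of a window is kept over any parent. -/
lemma Chain.rep_pos (hC : CompleteStatement C) (hL : L₀ C ≤ L) :
    K.Rep L P fun k => k = 0 ∨ k = 65 ∨ AF C ≤ k := by
  obtain ⟨hX, hY, e⟩ := K.win_eq hL P
  refine Chain.RepP.step hC hL (Chain.repP_none (Φ := fun _ => True) fun _ _ => trivial)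
    fun S hS _ => ⟨_, _, hX, hY, fun k hk => ?_⟩
  rw [e]
  exact window_pos _ (ctxBits_of hS.2.symm) hX hY hk

/-- Two levels of kept positions: all rows which are not soft agree. -/
lemma Chain.rep_nonSoft (hC : CompleteStatement C) (hL : L₀ C ≤ L) :
    K.Rep L P fun k => ¬ Soft (K.win L P) k := by
  obtain ⟨hX, hY, e⟩ := K.win_eq hL P
  refine Chain.RepP.step hC hL (Chain.rep_pos (P := K.up L P) hC (L := L + 1) (by omega))
    fun S hS ha => ⟨_, _, hX, hY, ?_⟩
  rw [e]
  refine agree_nonSoft _ (ctxBits_of hS.2) hX hY fun m hm => (ha m ?_).symm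
  rcases restVis_rows hm with h | h
  · exact Or.inl h
  · exact Or.inr (Or.inr h)

end

/-! ### Constant rows -/

/-- Two constant rows. -/
lemma ones_row {L : ℕ} (q : Win (St C)) {k : ℕ} (hk : k = A C - 2 ∨ k = A C - 1) :
    quadBits L q k = fun _ => true := by
  funext d
  have := AF_lt C
  unfold restRow at this
  show enc L (q d) k = true
  unfold enc finBits
  rw [if_pos (by omega), if_neg (by omega), if_neg (by omega), if_neg (by omega), if_neg (by omega),
    if_neg (by omega), if_neg (by omega), if_neg (by omega)]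
  exact decide_eq_true (by omega)

/-- A position away from all columns of the band. -/
lemma exists_plain {L : ℕ} (hL : L₀ C ≤ L) :
    ∃ X, X < H L ∧ ∀ c m, ¬ IsCol L (pick L X c) m := by
  have hM := nine_le_M hL
  have hsq : 0 < M L ^ 2 := pow_pos (M_pos L) 2
  have h3 : M L ^ 2 * 3 ≤ M L ^ 2 * M L := Nat.mul_le_mul_left _ (by omega)
  refine ⟨M L ^ 2 * 2, by rw [H_eq, Nat.mul_comm (M L)]; omega, fun c m h => ?_⟩
  have h1 : M L ^ 2 * 2 - 1 ≤ pick L (M L ^ 2 * 2) c := by
    cases c
    · exact Nat.sub_le _ _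
    · rw [pick_true (by rw [H_eq, Nat.mul_comm (M L)]; omega) (by omega)]
  have h2 : 1 ≤ hi L (pick L (M L ^ 2 * 2) c) := by
    unfold hi
    rw [Nat.le_div_iff_mul_le hsq]
    omega
  have := h.1
  omega

/-- Below every window there is one without table values and comparisons. -/
lemma Chain.rep_const (hC : CompleteStatement C) (K : Chain C) {L : ℕ} (hL : L₀ C ≤ L) (P : Z5) :
    K.RepP L P fun R => ∀ k, k = 0 ∨ k = 65 ∨ k = 66 → quadBits L R k = fun _ => false := by
  obtain ⟨X, hX, hcol⟩ := exists_plain hL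
  refine Chain.RepP.step hC hL (Chain.repP_none (Φ := fun _ => True) fun _ _ => trivial)
    fun S _ _ => ⟨X, 0, hX, H_pos L, ?_⟩
  have hA := AF_lt C
  unfold restRow at hA
  have heq : ∀ d, (window L (table C) (quadBits (L + 1) S) X 0 (K.dig L P) d).fin.eq = none :=
    fun d => by
      rw [window_apply, child_eqf _ _ _ _ _ (pick_lt hX _) (pick_lt (H_pos L) _),
        if_neg fun h => hcol _ _ h.1.1]
  rintro k (rfl | rfl | rfl)
  · funext d
    show enc L _ 0 = false
    rw [enc, if_pos (by omega), finBits, if_pos rfl, window_apply,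
      child_v _ _ _ _ _ (pick_lt hX _) (pick_lt (H_pos L) _), if_neg]
    rintro (⟨h, -⟩ | h) <;> exact hcol _ _ h.1
  · funext d
    show enc L _ 65 = false
    rw [enc, if_pos (by omega), finBits, if_neg (by omega), if_neg (by omega), if_neg (by omega),
      if_pos rfl, heq d]
    rfl
  · exact eq_of_not_eqWin fun ⟨d, hd⟩ => hd (heq d)

/-- The row showing the bit `t`. -/
def bitRow (C : Cfg) (t : Bool) : ℕ := if t then A C - 2 else 65

lemma bitRow_true (C : Cfg) : bitRow C true = A C - 2 := by simp [bitRow]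

lemma bitRow_false (C : Cfg) : bitRow C false = 65 := by simp [bitRow]

lemma bitRow_spec (C : Cfg) (L : ℕ) (t : Bool) :
    bitRow C t ≤ lastK C L ∧ bitRow C t < A C - 1 := by
  have h1 := AF_lt C
  unfold restRow at h1
  have h2 : A C ≤ lastK C L := by unfold lastK; exact (Nat.le_add_right _ _).trans (Nat.le_add_right _ _)
  generalize hr : bitRow C t = r
  have h3 : r = A C - 2 ∨ r = 65 := by
    cases t
    · rw [bitRow_false] at hr; exact Or.inr hr.symm
    · rw [bitRow_true] at hr; exact Or.inl hr.symm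
  generalize lastK C L = k at *
  generalize A C = a at *
  generalize AF C = f at *
  omega

lemma bitRow_bit {L : ℕ} {R : Win (St C)}
    (h : ∀ k, k = 0 ∨ k = 65 ∨ k = 66 → quadBits L R k = fun _ => false) (t : Bool) (g : Guest) :
    quadBits L R (bitRow C t) g = t := by
  cases t
  · rw [bitRow_false]; exact congrFun (h 65 (Or.inr (Or.inl rfl))) g
  · rw [bitRow_true]; exact congrFun (ones_row R (Or.inl rfl)) g

end Vale.Agent.P193.W4.Common.Minimal
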