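import Vale.Agent.P193.W4.Minimal.Gen

/-!
P193, module W4 A, minimality: moving the wire row or the column of the bundle shown by a window to
a constant row of the parents (after P196/Tile/Minimal/Move).
-/

noncomputable section

namespace Vale.Agent.P193.W4.Common.Minimal

variable {C : Cfg} {L X Y : ℕ} {Z : Digits C} {τ : ℕ → Bool} {b b' : ℕ → Bits}

/-- The parent shown by a component, the same in all tiles of a window. -/
def slot (X Y : ℕ) (Z : Digits C) (g : Guest) : Guest := fun a => g a || atFirst X Y Z a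

lemma guestBits_slot {d g : Guest} (k : ℕ) (h : ∀ a, atFirst X Y Z a = true → g a = !d a) :
    guestBits (par X Y Z d) b k g = b k (slot X Y Z g) := by
  have hne : ¬ ∃ a, par X Y Z d a = true ∧ g a = true := fun ⟨a, ha, hg⟩ => by
    simp only [par, Bool.and_eq_true] at ha
    rw [h a ha.2, ha.1] at hg
    exact Bool.noConfusion hg
  unfold guestBits
  rw [if_neg hne]
  congr 1
  funext a
  simp only [par, slot]
  cases ha : atFirst X Y Z a
  · simp
  · rw [h a ha]; cases d a <;> simp

lemma shownZ_first {d g : Guest} (h : ShownZ (dig Z d) g) (i : Fin 3)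
    (h0 : atFirst X Y Z (zAx i) = true) : g (zAx i) = !d (zAx i) := by
  have hz : (Z i).val = 0 := by fin_cases i <;> simpa [atFirst, zAx] using h0
  cases hd : d (zAx i)
  · exact (h i).1 (by simp [dig, hd, hz])
  · refine (h i).2 ?_
    simp only [dig, hd, if_true]
    rcases predDigit_cases (Z i) with ⟨-, e⟩ | ⟨e, -⟩ <;> omega

/-- A tile of a live row is not at the start of its parent. -/
lemma live_Y_ne_zero (hL : L₀ C ≤ L) {c : Bool} (h : IsWire L (pick L Y c)) : Y ≠ 0 := by
  rintro rfl
  cases c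
  · exact (rows_zero hL).1 h
  · rw [pick, if_pos rfl, pred'_zero] at h
    exact (rows_zero hL).2.1 h

/-- A tile of the band is not at the start of its parent. -/
lemma band_X_ne_zero (hL : L₀ C ≤ L) {c : Bool} {m : ℕ} (h : IsCol L (pick L X c) m) (h1 : 1 ≤ m)
    (h7 : m < 7) : X ≠ 0 := by
  rintro rfl
  have h2 := col_range hL h h1 h7
  have h3 := cuts_lt hL
  cases c
  · simp [pick] at h2
  · rw [pick, if_pos rfl, pred'_zero] at h2
    omega

lemma h_value (hL : L₀ C ≤ L) (hX : X < H L) (hY : Y < H L) (d g : Guest) :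
    (window L τ b X Y Z d).fin.h g =
      if IsLive C L (pick L Y (d 1)) ∧ ShownH L (pick L X (d 0)) (dig Z d) g
      then b (hi L (pick L Y (d 1))) (slot X Y Z g) else false := by
  rw [window_apply, child_h τ _ _ _ _ (pick_lt hX _) (pick_lt hY _)]
  split_ifs with h
  · obtain ⟨hl, hx0, hxc, hz⟩ := h
    refine guestBits_slot _ fun a ha => ?_
    fin_cases a
    · have h0 : X = 0 := by simpa [atFirst] using ha
      subst h0
      show g 0 = !d 0
      cases hd : d 0
      · exact hx0 (by simp [hd, pick])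
      · refine hxc ?_
        have := cuts_lt hL
        rw [hd, pick, if_pos rfl, pred'_zero]
        omega
    · exact absurd (by simpa [atFirst] using ha) (live_Y_ne_zero hL hl.1)
    · exact shownZ_first hz 0 ha
    · exact shownZ_first hz 1 ha
    · exact shownZ_first hz 2 ha
  · rfl

lemma vb_value (hL : L₀ C ≤ L) (hX : X < H L) (hY : Y < H L) (d g : Guest) :
    (window L τ b X Y Z d).fin.vb g =
      if IsBundle L (pick L X (d 0)) ∧ lo L (pick L X (d 0)) / 2 ≤ lastK C L ∧
          ShownV L (pick L Y (d 1)) (dig Z d) g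
      then b (lo L (pick L X (d 0)) / 2) (slot X Y Z g) else false := by
  rw [window_apply, child_vb τ _ _ _ _ (pick_lt hX _) (pick_lt hY _)]
  split_ifs with h
  · obtain ⟨hl, -, hy0, hyc, hz⟩ := h
    refine guestBits_slot _ fun a ha => ?_
    fin_cases a
    · exact absurd (by simpa [atFirst] using ha)
        (band_X_ne_zero hL hl.1 le_rfl (by norm_num))
    · have h0 : Y = 0 := by simpa [atFirst] using ha
      subst h0
      show g 1 = !d 1
      cases hd : d 1
      · exact hy0 (by simp [hd, pick])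
      · refine hyc ?_
        have := cuts_lt hL
        rw [hd, pick, if_pos rfl, pred'_zero]
        omega
    · exact shownZ_first hz 0 ha
    · exact shownZ_first hz 1 ha
    · exact shownZ_first hz 2 ha
  · rfl

lemma slot_moveY {Y' : ℕ} (h : Y ≠ 0) (h' : Y' ≠ 0) (g : Guest) :
    slot X Y' Z g = slot X Y Z g := by
  funext a
  simp only [slot]
  fin_cases a <;> simp [atFirst, h, h']

lemma slot_moveX {X' : ℕ} (h : X ≠ 0) (h' : X' ≠ 0) (g : Guest) :
    slot X' Y Z g = slot X Y Z g := by
  funext a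
  simp only [slot]
  fin_cases a <;> simp [atFirst, h, h']

/-! ### Moving the wire row -/

/-- The wire row of the window moved to the row `k`. -/
def moveY (L Y : ℕ) (c : Bool) (k : ℕ) : ℕ := shift Y (pick L Y c) (M L ^ 2 * k + M L)

lemma moveY_spec (hL : L₀ C ≤ L) (hY : Y < H L) {c : Bool} (hc : IsLive C L (pick L Y c))
    {k : ℕ} (hk : k ≤ lastK C L) :
    moveY L Y c k < H L ∧ moveY L Y c k ≠ 0 ∧ ∀ e,
      (IsLive C L (pick L (moveY L Y c k) e) ↔ IsLive C L (pick L Y e)) ∧
      hi L (pick L (moveY L Y c k) e) = k ∧ hi L (pick L Y e) = hi L (pick L Y c) ∧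
      ∀ (Z : Digits C) (g : Guest),
        ShownV L (pick L (moveY L Y c k) e) Z g ↔ ShownV L (pick L Y e) Z g := by
  set y := pick L Y c with hy
  obtain ⟨hw', hk', h1', htop, hhalf⟩ := wire_at hL hk
  obtain ⟨-, -, h1, htop0, -⟩ := wire_at hL hc.2
  have hey : M L ^ 2 * hi L y + M L = y := by
    have := coord_eq L y
    rw [hc.1.1, hc.1.2, mul_one, add_zero] at this
    exact this.symm
  rw [hey] at h1 htop0
  set y' := M L ^ 2 * k + M L
  obtain ⟨hlt, hne, hyc, hall⟩ := shift_spec hY (b := c) (x := y) rfl h1 (by omega) h1'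
    (by omega : y' + 1 < H L)
  refine ⟨hlt, hne, fun e => ?_⟩
  have he := hall e
  change pick L (moveY L Y c k) e + y = pick L Y e + y' at he
  have n1 : pick L Y e + (if e then 1 else 0) = y + (if c then 1 else 0) :=
    near hY (b := c) (x := y) rfl h1 (by omega) e
  have hij : (if e then 1 else 0) ≤ 1 ∧ (if c then 1 else 0) ≤ 1 := by
    constructor <;> split_ifs <;> omega
  obtain ⟨hh, hge, -, -⟩ := wire_near hL hc.1 (y' := pick L Y e) (by omega)
  obtain ⟨hh', hge', -, -⟩ := wire_near hL hw' (y' := pick L (moveY L Y c k) e) (by omega)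
  have hiff : IsWire L (pick L (moveY L Y c k) e) ↔ IsWire L (pick L Y e) := by
    constructor <;> intro h
    · have hyc' : pick L (moveY L Y c k) c = y' := hyc
      have := pick_unique hL hlt (b := c) (c := e) (hyc'.symm ▸ wire_even hL hw') (wire_even hL h)
      subst this
      exact hc.1
    · have := pick_unique hL hY (b := c) (c := e) (wire_even hL hc.1) (wire_even hL h)
      subst this
      show IsWire L (pick L (shift Y y y') c)
      rw [hyc]
      exact hw'
  refine ⟨?_, by omega, hh, fun Z g => ?_⟩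
  · unfold IsLive
    rw [hiff, hh', hh, hk']
    simp [hk, hc.2]
  · unfold ShownV
    have a1 : ¬ halfY L < pick L Y e := by omega
    have a2 : ¬ halfY L < pick L (moveY L Y c k) e := by omega
    have a3 : pick L Y e ≠ 0 := by omega
    have a4 : pick L (moveY L Y c k) e ≠ 0 := by omega
    simp only [a1, a2, a3, a4, false_implies, true_and]

/-- A horizontal component after moving the wire row. -/
lemma moveY_h (hL : L₀ C ≤ L) (hX : X < H L) (hY : Y < H L) {c : Bool}
    (hc : IsLive C L (pick L Y c)) {k : ℕ} (hk : k ≤ lastK C L) (g : Guest)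
    (h : b' k (slot X Y Z g) = b (hi L (pick L Y c)) (slot X Y Z g)) :
    quadBits L (window L τ b' X (moveY L Y c k) Z) (hRow g) =
      quadBits L (window L τ b X Y Z) (hRow g) := by
  obtain ⟨hlt, hne, hall⟩ := moveY_spec hL hY hc hk
  rw [quadBits_h, quadBits_h]
  funext d
  obtain ⟨a1, a2, a3, -⟩ := hall (d 1)
  rw [h_value hL hX hlt, h_value hL hX hY, slot_moveY (live_Y_ne_zero hL hc.1) hne]
  simp only [a1, a2, a3, h]

/-- A vertical component after moving the wire row. -/
lemma moveY_vb (hL : L₀ C ≤ L) (hX : X < H L) (hY : Y < H L) {c : Bool}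
    (hc : IsLive C L (pick L Y c)) {k : ℕ} (hk : k ≤ lastK C L) (g : Guest) :
    quadBits L (window L τ b X (moveY L Y c k) Z) (vRow g) =
      quadBits L (window L τ b X Y Z) (vRow g) := by
  obtain ⟨hlt, hne, hall⟩ := moveY_spec hL hY hc hk
  rw [quadBits_vb, quadBits_vb]
  funext d
  obtain ⟨-, -, -, a4⟩ := hall (d 1)
  rw [vb_value hL hX hlt, vb_value hL hX hY, slot_moveY (live_Y_ne_zero hL hc.1) hne]
  simp only [a4]

lemma quadBits_v (q : Win (St C)) : quadBits L q 0 = fun d => (q d).fin.v := by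
  funext d
  have := A_ge C
  show enc L (q d) 0 = _
  rw [enc, if_pos (by omega), finBits, if_pos rfl]

/-- The table values after moving the wire row among the compared rows. -/
lemma moveY_v (hL : L₀ C ≤ L) (hX : X < H L) (hY : Y < H L) {c : Bool}
    (hc : IsLive C L (pick L Y c)) {k : ℕ} (hk : k ≤ lastK C L)
    (hlow : hi L (pick L Y c) < A C - 1) (hk' : k < A C - 1) :
    quadBits L (window L τ b' X (moveY L Y c k) Z) 0 = quadBits L (window L τ b X Y Z) 0 := by
  obtain ⟨hlt, -, hall⟩ := moveY_spec hL hY hc hk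
  rw [quadBits_v, quadBits_v]
  funext d
  obtain ⟨-, a2, a3, -⟩ := hall (d 1)
  rw [window_apply, window_apply, child_v τ _ _ _ _ (pick_lt hX _) (pick_lt hlt _),
    child_v τ _ _ _ _ (pick_lt hX _) (pick_lt hY _), a2, a3]
  have n1 : ¬ A C - 1 ≤ k := by omega
  have n2 : ¬ A C - 1 ≤ hi L (pick L Y c) := by omega
  simp only [n1, n2, and_false]

/-! ### Moving the column of the bundle -/

/-- The column of the bundle moved to that of the row `k`. -/
def moveX (L X : ℕ) (c : Bool) (k : ℕ) : ℕ := shift X (pick L X c) (M L + 2 * k)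

lemma moveX_spec (hL : L₀ C ≤ L) (hX : X < H L) {c : Bool} (hb : IsBundle L (pick L X c))
    {k : ℕ} (hk : k ≤ lastK C L) :
    moveX L X c k < H L ∧ moveX L X c k ≠ 0 ∧ ∀ e,
      (IsBundle L (pick L (moveX L X c k) e) ↔ IsBundle L (pick L X e)) ∧
      (IsBundle L (pick L X e) → lo L (pick L (moveX L X c k) e) = 2 * k ∧
        pick L X e = pick L X c) ∧
      (∀ m, 4 ≤ m → ¬ IsZone C L (pick L (moveX L X c k) e) m ∧ ¬ IsZone C L (pick L X e) m) ∧
      ∀ (Z : Digits C) (g : Guest),
        ShownH L (pick L (moveX L X c k) e) Z g ↔ ShownH L (pick L X e) Z g := by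
  have hM := nine_le_M hL
  have hbd := (bounds_M hL).2.1
  set x := pick L X c with hx
  obtain ⟨hc', hlo', h2', h3'⟩ := band_col (L := L) (m := 1) (by norm_num) (by omega)
    (show 2 * k < M L by omega)
  rw [mul_one] at hc' hlo' h2' h3'
  obtain ⟨h1, h2, h3, h4⟩ := col_bounds hL hb.1 le_rfl (by norm_num)
  rw [mul_one] at h4
  set x' := M L + 2 * k
  have hb' : IsBundle L x' := ⟨hc', by rw [hlo']; omega⟩
  obtain ⟨hlt, hne, hxc, hall⟩ := shift_spec hX (b := c) (x := x) rfl h1 h2
    (by omega : 1 ≤ x') h2'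
  have hxc' : pick L (moveX L X c k) c = x' := hxc
  replace hlt : moveX L X c k < H L := hlt
  refine ⟨hlt, hne, fun e => ?_⟩
  have he := hall e
  change pick L (moveX L X c k) e + x = pick L X e + x' at he
  have n1 : pick L X e + (if e then 1 else 0) = x + (if c then 1 else 0) :=
    near hX (b := c) (x := x) rfl h1 h2 e
  have hij : (if e then 1 else 0) ≤ 1 ∧ (if c then 1 else 0) ≤ 1 := by
    constructor <;> split_ifs <;> omega
  have same : IsBundle L (pick L X e) → e = c := fun h =>
    pick_unique hL hX (bundle_even hL h) (bundle_even hL hb)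
  have same' : IsBundle L (pick L (moveX L X c k) e) → e = c := fun h =>
    pick_unique hL hlt (bundle_even hL h) (by rw [hxc']; exact bundle_even hL hb')
  refine ⟨⟨fun h => ?_, fun h => ?_⟩, fun h => ?_, fun m hm => ⟨fun h => ?_, fun h => ?_⟩,
    fun Z g => ?_⟩
  · rw [same' h]; exact hb
  · rw [same h, hxc']; exact hb'
  · rw [same h, hxc']; exact ⟨hlo', rfl⟩
  · have := pick_unique hL hlt (zone_even hL h) (c := c) (by rw [hxc']; exact bundle_even hL hb')
    rw [this, hxc'] at h
    have := h.1.2.symm.trans hc'.2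
    omega
  · have := pick_unique hL hX (zone_even hL h) (c := c) (bundle_even hL hb)
    rw [this] at h
    have := h.1.2.symm.trans hb.1.2
    omega
  · unfold ShownH
    have a1 : ¬ cutX L < pick L X e := by unfold cutX; omega
    have a2 : ¬ cutX L < pick L (moveX L X c k) e := by unfold cutX; omega
    have a3 : pick L X e ≠ 0 := by omega
    have a4 : pick L (moveX L X c k) e ≠ 0 := by omega
    simp only [a1, a2, a3, a4, false_implies, true_and]

/-- A vertical component after moving the column of the bundle. -/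
lemma moveX_vb (hL : L₀ C ≤ L) (hX : X < H L) (hY : Y < H L) {c : Bool}
    (hb : IsBundle L (pick L X c)) (hk0 : lo L (pick L X c) / 2 ≤ lastK C L) {k : ℕ}
    (hk : k ≤ lastK C L) (g : Guest)
    (h : b' k (slot X Y Z g) = b (lo L (pick L X c) / 2) (slot X Y Z g)) :
    quadBits L (window L τ b' (moveX L X c k) Y Z) (vRow g) =
      quadBits L (window L τ b X Y Z) (vRow g) := by
  obtain ⟨hlt, hne, hall⟩ := moveX_spec hL hX hb hk
  rw [quadBits_vb, quadBits_vb]
  funext d
  obtain ⟨a1, a2, -, -⟩ := hall (d 0)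
  rw [vb_value hL hlt hY, vb_value hL hX hY,
    slot_moveX (band_X_ne_zero hL hb.1 le_rfl (by norm_num)) hne]
  by_cases hj : IsBundle L (pick L X (d 0))
  · obtain ⟨e1, e2⟩ := a2 hj
    simp only [a1, hj, e1, e2, Nat.mul_div_cancel_left _ (show 0 < 2 by norm_num), hk, hk0,
      true_and, h]
  · simp only [a1, hj, false_and, if_false]

/-- A horizontal component after moving the column of the bundle. -/
lemma moveX_h (hL : L₀ C ≤ L) (hX : X < H L) (hY : Y < H L) {c : Bool}
    (hb : IsBundle L (pick L X c)) {k : ℕ} (hk : k ≤ lastK C L) (g : Guest) :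
    quadBits L (window L τ b (moveX L X c k) Y Z) (hRow g) =
      quadBits L (window L τ b X Y Z) (hRow g) := by
  obtain ⟨hlt, hne, hall⟩ := moveX_spec hL hX hb hk
  rw [quadBits_h, quadBits_h]
  funext d
  obtain ⟨-, -, -, a4⟩ := hall (d 0)
  rw [h_value hL hlt hY, h_value hL hX hY,
    slot_moveX (band_X_ne_zero hL hb.1 le_rfl (by norm_num)) hne]
  simp only [a4]

/-- The table values after moving the column of the bundle. -/
lemma moveX_v (hL : L₀ C ≤ L) (hX : X < H L) (hY : Y < H L) {c : Bool}
    (hb : IsBundle L (pick L X c)) {k : ℕ} (hk : k ≤ lastK C L) :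
    quadBits L (window L τ b' (moveX L X c k) Y Z) 0 = quadBits L (window L τ b X Y Z) 0 := by
  obtain ⟨hlt, -, hall⟩ := moveX_spec hL hX hb hk
  rw [quadBits_v, quadBits_v]
  funext d
  obtain ⟨-, -, a3, -⟩ := hall (d 0)
  rw [window_apply, window_apply, child_v τ _ _ _ _ (pick_lt hlt _) (pick_lt hY _),
    child_v τ _ _ _ _ (pick_lt hX _) (pick_lt hY _), if_neg, if_neg]
  · rintro (h | h)
    · exact (a3 4 le_rfl).2 h.1
    · exact (a3 6 (by norm_num)).2 h
  · rintro (h | h)
    · exact (a3 4 le_rfl).1 h.1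
    · exact (a3 6 (by norm_num)).1 h

/-! ### Moving to constant rows -/

variable {K : Chain C} {P : Z5}

/-- One horizontal component and the table values. -/
lemma rep_moveY (hC : CompleteStatement C) (hL : L₀ C ≤ L) {c : Bool}
    (hc : IsLive C L (pick L (K.pos L P 1) c))
    (hlow : hi L (pick L (K.pos L P 1) c) < A C - 1) (g : Guest) :
    K.Rep L P fun k => k = 0 ∨ k = hRow g := by
  obtain ⟨hX, hY, e⟩ := K.win_eq hL P
  set t := quadBits (L + 1) (K.win (L + 1) (K.up L P)) (hi L (pick L (K.pos L P 1) c))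
    (slot (K.pos L P 0) (K.pos L P 1) (K.dig L P) g) with ht
  obtain ⟨h1, h2⟩ := bitRow_spec C L t
  refine Chain.RepP.step hC hL (Chain.rep_const hC K (L := L + 1) (by omega) (K.up L P))
    fun S _ ha => ⟨_, _, hX, (moveY_spec hL hY hc h1).1, fun k hk => ?_⟩
  rw [e]
  rcases hk with rfl | rfl
  · exact moveY_v hL hX hY hc h1 hlow h2
  · exact moveY_h hL hX hY hc h1 g (bitRow_bit ha t _)

/-- One vertical component and the table values. -/
lemma rep_moveX (hC : CompleteStatement C) (hL : L₀ C ≤ L) {c : Bool}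
    (hb : IsBundle L (pick L (K.pos L P 0) c))
    (hk0 : lo L (pick L (K.pos L P 0) c) / 2 ≤ lastK C L) (g : Guest) :
    K.Rep L P fun k => k = 0 ∨ k = vRow g := by
  obtain ⟨hX, hY, e⟩ := K.win_eq hL P
  set t := quadBits (L + 1) (K.win (L + 1) (K.up L P)) (lo L (pick L (K.pos L P 0) c) / 2)
    (slot (K.pos L P 0) (K.pos L P 1) (K.dig L P) g) with ht
  obtain ⟨h1, -⟩ := bitRow_spec C L t
  refine Chain.RepP.step hC hL (Chain.rep_const hC K (L := L + 1) (by omega) (K.up L P))
    fun S _ ha => ⟨_, _, (moveX_spec hL hX hb h1).1, hY, fun k hk => ?_⟩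
  rw [e]
  rcases hk with rfl | rfl
  · exact moveX_v hL hX hY hb h1
  · exact moveX_vb hL hX hY hb hk0 h1 g (bitRow_bit ha t _)

/-- A horizontal and a vertical component. -/
lemma rep_moveXY (hC : CompleteStatement C) (hL : L₀ C ≤ L) {c c' : Bool}
    (hc : IsLive C L (pick L (K.pos L P 1) c)) (hb : IsBundle L (pick L (K.pos L P 0) c'))
    (hk0 : lo L (pick L (K.pos L P 0) c') / 2 ≤ lastK C L) (g g' : Guest) :
    K.Rep L P fun k => k = hRow g ∨ k = vRow g' := by
  obtain ⟨hX, hY, e⟩ := K.win_eq hL P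
  set X := K.pos L P 0
  set Y := K.pos L P 1
  set t := quadBits (L + 1) (K.win (L + 1) (K.up L P)) (hi L (pick L Y c))
    (slot X Y (K.dig L P) g) with ht
  set t' := quadBits (L + 1) (K.win (L + 1) (K.up L P)) (lo L (pick L X c') / 2)
    (slot X Y (K.dig L P) g') with ht'
  obtain ⟨h1, -⟩ := bitRow_spec C L t
  obtain ⟨h1', -⟩ := bitRow_spec C L t'
  obtain ⟨hY', hY0, -⟩ := moveY_spec hL hY hc h1
  refine Chain.RepP.step hC hL (Chain.rep_const hC K (L := L + 1) (by omega) (K.up L P))
    fun S _ ha => ⟨moveX L X c' (bitRow C t'), moveY L Y c (bitRow C t),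
      (moveX_spec hL hX hb h1').1, hY', fun k hk => ?_⟩
  rw [e]
  rcases hk with rfl | rfl
  · rw [moveX_h hL hX hY' hb h1' g]
    exact moveY_h hL hX hY hc h1 g (bitRow_bit ha t _)
  · rw [← moveY_vb (τ := table C) (b := quadBits (L + 1) (K.win (L + 1) (K.up L P))) hL hX hY hc
      h1 g']
    refine moveX_vb hL hX hY' hb hk0 h1' g' ?_
    rw [bitRow_bit ha t', ht', slot_moveY (live_Y_ne_zero hL hc.1) hY0]

end Vale.Agent.P193.W4.Common.Minimal
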