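import Vale.Agent.P193.W4.Minimal.Rows

/-!
P193, module W4 A, minimality: a real window occurs below every window like the real one of some
higher level (after P196/Tile/Minimal/Occurs).
-/

noncomputable section

namespace Vale.Agent.P193.W4.Common.Minimal

variable {C : Cfg} {K : Chain C} {L : ℕ} {P : Z5}

/-- The selected rows of a parent of a window without comparisons. -/
lemma rep_visible (hC : CompleteStatement C) (hL : L₀ C ≤ L) {Q : Z5} {X Y : ℕ} (hX : X < H L)
    (hY : Y < H L) {k₁ k₂ : ℕ}
    (h1 : k₁ ≠ 0 → ∃ c, IsLive C L (pick L Y c) ∧ hi L (pick L Y c) = k₁)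
    (h2 : k₂ ≠ 0 → ∃ c, IsBundle L (pick L X c)) :
    K.Rep (L + 1) Q fun m => m = k₁ ∨ m = k₂ ∨ RestVis C L X Y m := by
  have hL' : L₀ C ≤ L + 1 := by omega
  have hA := AF_lt C
  unfold restRow at hA
  have noRest : k₂ ≠ 0 → ∀ m, ¬ RestVis C L X Y m := fun h m => by
    obtain ⟨c, hc⟩ := h2 h
    exact no_restVis hL hX hc m
  set R := K.win (L + 1) Q
  have low : Soft R k₁ → ∀ m, RestVis C L X Y m → m = 0 := fun hs m hm => by
    obtain ⟨c, hw, hk⟩ := h1 fun h => not_soft_zero R (h ▸ hs)
    have := restVis_le hL hY hw.1 hm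
    have := soft_le hs
    rcases restVis_rows hm with h | h
    · exact h
    · omega
  have ne0 : ∀ {k}, Soft R k → k ≠ 0 := fun hs h => not_soft_zero R (h ▸ hs)
  by_cases hs1 : Soft R k₁
  · by_cases hs2 : Soft R k₂
    · rcases hs1 with ⟨a, b⟩ | ⟨rfl, he⟩
      · rcases hs2 with ⟨a', b'⟩ | ⟨rfl, he⟩
        · refine (rep_pair hC hL' a b a' b').mono fun m hm => ?_
          exact hm.imp_right fun h => h.resolve_right (noRest (by omega) m)
        · refine (rep_sig hC hL' he).mono fun m hm => ?_
          rcases hm with h | h | h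
          · omega
          · omega
          · exact absurd h (noRest (by norm_num) m)
      · refine (rep_sig hC hL' he).mono fun m hm => ?_
        have := soft_le hs2
        rcases hm with h | h | h
        · omega
        · omega
        · exact absurd h (noRest (ne0 hs2) m)
    · rcases hs1 with ⟨a, b⟩ | ⟨rfl, he⟩
      · refine (rep_field hC hL' a b).mono fun m hm => ?_
        rcases hm with h | h | h
        · exact Or.inl h
        · exact Or.inr (h ▸ hs2)
        · exact Or.inr (low (Or.inl ⟨a, b⟩) m h ▸ not_soft_zero R)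
      · rcases Nat.lt_or_ge k₂ (A C) with hk | hk
        · refine (rep_sig hC hL' he).mono fun m hm => ?_
          rcases hm with h | h | h
          · omega
          · omega
          · have := low (Or.inr ⟨rfl, he⟩) m h; omega
        · have hne : k₂ ≠ 0 := fun h0 => by rw [h0] at hk; omega
          refine (rep_num hC hL' he hk).mono fun m hm => ?_
          exact hm.imp_right fun h => h.resolve_right (noRest hne m)
  · by_cases hs2 : Soft R k₂
    · have hno := noRest (ne0 hs2)
      rcases hs2 with ⟨a, b⟩ | ⟨rfl, he⟩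
      · refine (rep_field hC hL' a b).mono fun m hm => ?_
        rcases hm with h | h | h
        · exact Or.inr (h ▸ hs1)
        · exact Or.inl h
        · exact absurd h (hno m)
      · rcases Nat.lt_or_ge k₁ (A C) with hk | hk
        · refine (rep_sig hC hL' he).mono fun m hm => ?_
          rcases hm with h | h | h
          · omega
          · omega
          · exact absurd h (hno m)
        · refine (rep_num hC hL' he hk).mono fun m hm => ?_
          rcases hm with h | h | h
          · exact Or.inr h
          · exact Or.inl h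
          · exact absurd h (hno m)
    · refine (Chain.rep_nonSoft hC hL').mono fun m hm => ?_
      rcases hm with h | h | h
      · exact h ▸ hs1
      · exact h ▸ hs2
      · exact not_soft_rest (restVis_rows h)

/-- A real window without comparisons occurs. -/
lemma occ_ne (hC : CompleteStatement C) (hL : L₀ C ≤ L) (hne : ¬ EqWin (K.win L P)) :
    K.Occ L P := by
  classical
  obtain ⟨hX, hY, e⟩ := K.win_eq hL P
  set X := K.pos L P 0
  set Y := K.pos L P 1
  rw [e] at hne
  set k₁ := if h : ∃ c, IsLive C L (pick L Y c) then hi L (pick L Y h.choose) else 0 with hk₁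
  set k₂ := if h : ∃ c, IsBundle L (pick L X c) ∧ lo L (pick L X c) / 2 ≤ lastK C L
    then lo L (pick L X h.choose) / 2 else 0 with hk₂
  have h1 : k₁ ≠ 0 → ∃ c, IsLive C L (pick L Y c) ∧ hi L (pick L Y c) = k₁ := by
    intro h
    by_cases he : ∃ c, IsLive C L (pick L Y c)
    · exact ⟨he.choose, he.choose_spec, by rw [hk₁, dif_pos he]⟩
    · exact absurd (by rw [hk₁, dif_neg he]) h
  have h2 : k₂ ≠ 0 → ∃ c, IsBundle L (pick L X c) := by
    intro h
    by_cases he : ∃ c, IsBundle L (pick L X c) ∧ lo L (pick L X c) / 2 ≤ lastK C L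
    · exact ⟨he.choose, he.choose_spec.1⟩
    · exact absurd (by rw [hk₂, dif_neg he]) h
  refine Chain.RepP.step hC hL (rep_visible (Q := K.up L P) hC hL hX hY h1 h2) fun S hS ha =>
    ⟨X, Y, hX, hY, ?_⟩
  rw [e]
  refine window_congr _ (ctxBits_of hS.2.symm) hX hY (fun j hj => ?_) (fun j hj hj' => ?_)
    (fun m hm => ha m (Or.inr (Or.inr hm))) fun d hz hM hr hm k hk => ?_
  · refine ha _ (Or.inl ?_)
    have he : ∃ i, IsLive C L (pick L Y i) := ⟨j, hj⟩
    rw [hk₁, dif_pos he, live_unique hL hY he.choose_spec hj]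
  · refine ha _ (Or.inr (Or.inl ?_))
    have he : ∃ i, IsBundle L (pick L X i) ∧ lo L (pick L X i) / 2 ≤ lastK C L := ⟨j, hj, hj'⟩
    rw [hk₂, dif_pos he, bundle_unique hL hX he.choose_spec.1 hj]
  · refine absurd ⟨d, ?_⟩ hne
    rw [window_apply, child_eqf _ _ _ _ _ (pick_lt hX _) (pick_lt hY _),
      if_pos ⟨hz, hM, hr, hm⟩]
    simp

/-- Every real window occurs. -/
theorem occ_real (hC : CompleteStatement C) (hL : L₀ C ≤ L) : K.Occ L P := by
  by_cases he : EqWin (K.win L P)
  swap
  · exact occ_ne hC hL he
  obtain ⟨hX, hY, e⟩ := K.win_eq hL P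
  rw [e] at he
  obtain ⟨c, d⟩ := eqData hL hX hY he
  by_cases heR : EqWin (K.win (L + 1) (K.up L P))
  swap
  · exact Chain.RepP.step hC hL (occ_ne hC (by omega) heR) fun S _ hS =>
      ⟨_, _, hX, hY, by rw [hS, e]⟩
  have hA := A_ge C
  refine Chain.RepP.step hC hL (rep_sig hC (by omega) heR) fun S hS ha => ⟨_, _, hX, hY, ?_⟩
  rw [e]
  refine window_congr _ (ctxBits_of hS.2.symm) hX hY (fun j hj => ?_) (fun j hj _ => ?_)
    (fun m hm => ?_) fun _ _ _ hr _ k hk => ha k (by omega)
  · refine ha _ ?_
    have := (d.rows j).2.2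
    have := d.hl
    have := d.hu
    omega
  · have := pick_unique hL hX (bundle_even hL hj) (zone_even hL d.col)
    subst this
    have := hj.1.2.symm.trans d.col.1.2
    omega
  · obtain ⟨j, j', hj⟩ := hm
    obtain ⟨h, he'⟩ := scans_even hj
    rcases h with h | h <;>
    · have := pick_unique hL hX (col_even hL ⟨h, he'⟩) (zone_even hL d.col)
      subst this
      have := h.2.symm.trans d.col.1.2
      omega

end Vale.Agent.P193.W4.Common.Minimal
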