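import Vale.Agent.P193.W4.Minimal.Eq

/-!
P193, module W4 A, minimality: selected rows of a real window below an arbitrary one (after
P196/Tile/Minimal/Rows).
-/

noncomputable section

namespace Vale.Agent.P193.W4.Common.Minimal

variable {C : Cfg} {K : Chain C} {L : ℕ} {P : Z5}

lemma not_soft_zero (q : Win (St C)) : ¬ Soft q 0 := by
  rintro (h | h) <;> omega

lemma soft_le {q : Win (St C)} {k : ℕ} (h : Soft q k) : k ≤ 66 := by
  rcases h with h | h <;> omega

lemma not_soft_rest {q : Win (St C)} {k : ℕ} (h : k = 0 ∨ AF C ≤ k) : ¬ Soft q k := fun hs => by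
  have := soft_le hs
  have hA := (AF_lt C).1
  unfold restRow at hA
  rcases h with rfl | h
  · exact not_soft_zero q hs
  · omega

/-- A number of the range `1, …, 64` is a horizontal or a vertical component. -/
lemma component {k : ℕ} (h1 : 1 ≤ k) (h64 : k ≤ 64) : ∃ g, k = hRow g ∨ k = vRow g := by
  by_cases h : k ≤ 32
  · refine ⟨gidx.symm ⟨k - 1, by omega⟩, Or.inl ?_⟩
    rw [hRow, Equiv.apply_symm_apply]
    simp only
    omega
  · refine ⟨gidx.symm ⟨k - 33, by omega⟩, Or.inr ?_⟩
    rw [vRow, Equiv.apply_symm_apply]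
    simp only
    omega

lemma live_unique {Y : ℕ} (hL : L₀ C ≤ L) (hY : Y < H L) {c e : Bool}
    (hc : IsLive C L (pick L Y c)) (he : IsLive C L (pick L Y e)) : e = c :=
  pick_unique hL hY (wire_even hL he.1) (wire_even hL hc.1)

lemma bundle_unique {X : ℕ} (hL : L₀ C ≤ L) (hX : X < H L) {c e : Bool}
    (hc : IsBundle L (pick L X c)) (he : IsBundle L (pick L X e)) : e = c :=
  pick_unique hL hX (bundle_even hL he) (bundle_even hL hc)

/-- Any row, together with the table values, and all rows which are not soft if it is not. -/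
lemma rep_row (hC : CompleteStatement C) (hL : L₀ C ≤ L) (r : ℕ) :
    K.Rep L P fun k =>
      k = 0 ∨ k = r ∨ (¬ Soft (K.win L P) r ∧ ¬ Soft (K.win L P) k) := by
  by_cases hs : Soft (K.win L P) r
  swap
  · refine (Chain.rep_nonSoft hC hL).mono fun k hk => ?_
    rcases hk with rfl | rfl | hk
    · exact not_soft_zero _
    · exact hs
    · exact hk.2
  obtain ⟨hX, hY, e⟩ := K.win_eq hL P
  have hA := AF_lt C
  unfold restRow at hA
  rcases hs with ⟨h1, h64⟩ | ⟨rfl, he⟩
  swap
  · have he' := he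
    rw [e] at he'
    obtain ⟨c, d⟩ := eqData hL hX hY he'
    have hfin : K.Rep L P fun k => k = 0 ∨ k = 66 := by
      rcases Nat.lt_or_ge (hi L (K.pos L P 1)) (A C - 1) with h | h
      · exact rep_eq_low hC d h
      · exact (rep_eq_top hC d (le_antisymm d.hu h)).mono fun k hk => by omega
    refine hfin.mono fun k hk => ?_
    rcases hk with h | h | h
    · exact Or.inl h
    · exact Or.inr h
    · exact absurd (Or.inr ⟨rfl, he⟩) h.1
  obtain ⟨g, hg⟩ := component h1 h64
  have hsoft : Soft (K.win L P) r := Or.inl ⟨h1, h64⟩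
  have close : K.Rep L P (fun k => k = 0 ∨ k = r) → K.Rep L P fun k =>
      k = 0 ∨ k = r ∨ (¬ Soft (K.win L P) r ∧ ¬ Soft (K.win L P) k) := fun h =>
    h.mono fun k hk => by
      rcases hk with h' | h' | h'
      · exact Or.inl h'
      · exact Or.inr h'
      · exact absurd hsoft h'.1
  refine close ?_
  rcases hg with rfl | rfl
  · by_cases hex : ∃ c, IsLive C L (pick L (K.pos L P 1) c)
    · obtain ⟨c, hlive⟩ := hex
      by_cases hf : Soft (K.win (L + 1) (K.up L P)) (hi L (pick L (K.pos L P 1) c))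
      · exact rep_moveY hC hL hlive (by have := soft_le hf; omega) g
      · refine Chain.RepP.step hC hL (Chain.rep_nonSoft (P := K.up L P) hC (L := L + 1) (by omega))
          fun S hS ha => ⟨_, _, hX, hY, fun k hk => ?_⟩
        rw [e]
        rcases hk with rfl | rfl
        · exact window_pos _ (ctxBits_of hS.2.symm) hX hY (Or.inl rfl)
        · refine window_h _ hX hY (fun c' hc' => ?_) g
          rw [live_unique hL hY hlive hc']
          exact ha _ hf
    · refine Chain.RepP.step hC hL (Chain.repP_none (Φ := fun _ => True) fun _ _ => trivial)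
        fun S hS _ => ⟨_, _, hX, hY, fun k hk => ?_⟩
      rw [e]
      rcases hk with rfl | rfl
      · exact window_pos _ (ctxBits_of hS.2.symm) hX hY (Or.inl rfl)
      · exact window_h _ hX hY (fun c' hc' => absurd ⟨c', hc'⟩ hex) g
  · by_cases hex : ∃ c, IsBundle L (pick L (K.pos L P 0) c) ∧
        lo L (pick L (K.pos L P 0) c) / 2 ≤ lastK C L
    · obtain ⟨c, hb, hk0⟩ := hex
      exact rep_moveX hC hL hb hk0 g
    · refine Chain.RepP.step hC hL (Chain.repP_none (Φ := fun _ => True) fun _ _ => trivial)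
        fun S hS _ => ⟨_, _, hX, hY, fun k hk => ?_⟩
      rw [e]
      rcases hk with rfl | rfl
      · exact window_pos _ (ctxBits_of hS.2.symm) hX hY (Or.inl rfl)
      · exact window_vb _ hX hY (fun c' h h' => absurd ⟨c', h, h'⟩ hex) g

/-- One component and every row which is not soft. -/
lemma rep_field (hC : CompleteStatement C) (hL : L₀ C ≤ L) {k : ℕ} (h1 : 1 ≤ k) (h64 : k ≤ 64) :
    K.Rep L P fun m => m = k ∨ ¬ Soft (K.win L P) m := by
  obtain ⟨hX, hY, e⟩ := K.win_eq hL P
  obtain ⟨g, hg⟩ := component h1 h64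
  rcases hg with rfl | rfl
  · by_cases hex : ∃ c, IsLive C L (pick L (K.pos L P 1) c)
    · obtain ⟨c, hlive⟩ := hex
      refine Chain.RepP.step hC hL (rep_row (P := K.up L P) hC (L := L + 1) (by omega)
        (hi L (pick L (K.pos L P 1) c))) fun S hS ha => ⟨_, _, hX, hY, fun m hm => ?_⟩
      rw [e] at hm ⊢
      rcases hm with rfl | hm
      · refine window_h _ hX hY (fun c' hc' => ?_) g
        rw [live_unique hL hY hlive hc']
        exact ha _ (Or.inr (Or.inl rfl))
      · refine agree_nonSoft _ (ctxBits_of hS.2) hX hY (fun m hm' => (ha m ?_).symm) m hm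
        have hle := restVis_le hL hY hlive.1 hm'
        rcases restVis_rows hm' with h | h
        · exact Or.inl h
        · exact Or.inr (Or.inr ⟨not_soft_rest (Or.inr (h.trans hle)), not_soft_rest (Or.inr h)⟩)
    · refine Chain.RepP.step hC hL (Chain.rep_pos (P := K.up L P) hC (L := L + 1) (by omega))
        fun S hS ha => ⟨_, _, hX, hY, fun m hm => ?_⟩
      rw [e] at hm ⊢
      rcases hm with rfl | hm
      · exact window_h _ hX hY (fun c' hc' => absurd ⟨c', hc'⟩ hex) g
      · refine agree_nonSoft _ (ctxBits_of hS.2) hX hY (fun m hm' => (ha m ?_).symm) m hm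
        rcases restVis_rows hm' with h | h
        · exact Or.inl h
        · exact Or.inr (Or.inr h)
  · by_cases hex : ∃ c, IsBundle L (pick L (K.pos L P 0) c) ∧
        lo L (pick L (K.pos L P 0) c) / 2 ≤ lastK C L
    · obtain ⟨c, hb, hk0⟩ := hex
      refine Chain.RepP.step hC hL (rep_row (P := K.up L P) hC (L := L + 1) (by omega)
        (lo L (pick L (K.pos L P 0) c) / 2)) fun S hS ha => ⟨_, _, hX, hY, fun m hm => ?_⟩
      rw [e] at hm ⊢
      rcases hm with rfl | hm
      · refine window_vb _ hX hY (fun c' hc' _ => ?_) g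
        rw [bundle_unique hL hX hb hc']
        exact ha _ (Or.inr (Or.inl rfl))
      · exact agree_nonSoft _ (ctxBits_of hS.2) hX hY
          (fun m hm' => absurd hm' (no_restVis hL hX hb m)) m hm
    · refine Chain.RepP.step hC hL (Chain.rep_pos (P := K.up L P) hC (L := L + 1) (by omega))
        fun S hS ha => ⟨_, _, hX, hY, fun m hm => ?_⟩
      rw [e] at hm ⊢
      rcases hm with rfl | hm
      · exact window_vb _ hX hY (fun c' h h' => absurd ⟨c', h, h'⟩ hex) g
      · refine agree_nonSoft _ (ctxBits_of hS.2) hX hY (fun m hm' => (ha m ?_).symm) m hm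
        rcases restVis_rows hm' with h | h
        · exact Or.inl h
        · exact Or.inr (Or.inr h)

/-- Two components. -/
lemma rep_pair (hC : CompleteStatement C) (hL : L₀ C ≤ L) {k k' : ℕ} (h1 : 1 ≤ k) (h64 : k ≤ 64)
    (h1' : 1 ≤ k') (h64' : k' ≤ 64) : K.Rep L P fun m => m = k ∨ m = k' := by
  obtain ⟨hX, hY, e⟩ := K.win_eq hL P
  set X := K.pos L P 0
  set Y := K.pos L P 1
  have viaRow : ∀ r, K.Rep L P fun m => ∃ g,
      (m = hRow g ∧ ∀ c, IsLive C L (pick L Y c) → hi L (pick L Y c) = r) ∨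
      (m = vRow g ∧ ∀ c, IsBundle L (pick L X c) → lo L (pick L X c) / 2 ≤ lastK C L →
        lo L (pick L X c) / 2 = r) := fun r => by
    refine Chain.RepP.step hC hL (rep_row (P := K.up L P) hC (L := L + 1) (by omega) r)
      fun S hS ha => ⟨X, Y, hX, hY, fun m hm => ?_⟩
    rw [e]
    rcases hm with ⟨g, ⟨rfl, h⟩ | ⟨rfl, h⟩⟩
    · exact window_h _ hX hY (fun c hc => by rw [h c hc]; exact ha r (Or.inr (Or.inl rfl))) g
    · exact window_vb _ hX hY
        (fun c hc hc' => by rw [h c hc hc']; exact ha r (Or.inr (Or.inl rfl))) g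
  obtain ⟨g, hg⟩ := component h1 h64
  obtain ⟨g', hg'⟩ := component h1' h64'
  by_cases hwy : ∃ c, IsLive C L (pick L Y c)
  swap
  · by_cases hbx : ∃ c, IsBundle L (pick L X c) ∧ lo L (pick L X c) / 2 ≤ lastK C L
    · obtain ⟨c, hb, -⟩ := hbx
      refine (viaRow (lo L (pick L X c) / 2)).mono fun m hm => ?_
      have hh1 : ∀ e, IsLive C L (pick L Y e) → hi L (pick L Y e) = lo L (pick L X c) / 2 :=
        fun e he => absurd ⟨e, he⟩ hwy
      have hh2 : ∀ e, IsBundle L (pick L X e) → lo L (pick L X e) / 2 ≤ lastK C L →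
          lo L (pick L X e) / 2 = lo L (pick L X c) / 2 := fun e he _ => by
        rw [bundle_unique hL hX hb he]
      rcases hm with rfl | rfl
      · exact ⟨g, hg.imp (⟨·, hh1⟩) (⟨·, hh2⟩)⟩
      · exact ⟨g', hg'.imp (⟨·, hh1⟩) (⟨·, hh2⟩)⟩
    · refine (viaRow 0).mono fun m hm => ?_
      have hh1 : ∀ e, IsLive C L (pick L Y e) → hi L (pick L Y e) = 0 :=
        fun e he => absurd ⟨e, he⟩ hwy
      have hh2 : ∀ e, IsBundle L (pick L X e) → lo L (pick L X e) / 2 ≤ lastK C L →
          lo L (pick L X e) / 2 = 0 := fun e he he' => absurd ⟨e, he, he'⟩ hbx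
      rcases hm with rfl | rfl
      · exact ⟨g, hg.imp (⟨·, hh1⟩) (⟨·, hh2⟩)⟩
      · exact ⟨g', hg'.imp (⟨·, hh1⟩) (⟨·, hh2⟩)⟩
  obtain ⟨c, hlive⟩ := hwy
  have hh1 : ∀ e, IsLive C L (pick L Y e) → hi L (pick L Y e) = hi L (pick L Y c) := fun e he => by
    rw [live_unique hL hY hlive he]
  by_cases hbx : ∃ e, IsBundle L (pick L X e) ∧ lo L (pick L X e) / 2 ≤ lastK C L
  swap
  · refine (viaRow (hi L (pick L Y c))).mono fun m hm => ?_
    have hh2 : ∀ e, IsBundle L (pick L X e) → lo L (pick L X e) / 2 ≤ lastK C L →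
        lo L (pick L X e) / 2 = hi L (pick L Y c) := fun e he he' => absurd ⟨e, he, he'⟩ hbx
    rcases hm with rfl | rfl
    · exact ⟨g, hg.imp (⟨·, hh1⟩) (⟨·, hh2⟩)⟩
    · exact ⟨g', hg'.imp (⟨·, hh1⟩) (⟨·, hh2⟩)⟩
  obtain ⟨c', hb, hk0⟩ := hbx
  have hh2 : ∀ e, IsBundle L (pick L X e) → lo L (pick L X e) / 2 ≤ lastK C L →
      lo L (pick L X e) / 2 = lo L (pick L X c') / 2 := fun e he _ => by
    rw [bundle_unique hL hX hb he]
  rcases hg with rfl | rfl <;> rcases hg' with rfl | rfl
  · refine (viaRow (hi L (pick L Y c))).mono fun m hm => ?_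
    rcases hm with rfl | rfl
    · exact ⟨g, Or.inl ⟨rfl, hh1⟩⟩
    · exact ⟨g', Or.inl ⟨rfl, hh1⟩⟩
  · exact rep_moveXY hC hL hlive hb hk0 g g'
  · exact (rep_moveXY hC hL hlive hb hk0 g' g).mono fun m hm => hm.symm
  · refine (viaRow (lo L (pick L X c') / 2)).mono fun m hm => ?_
    rcases hm with rfl | rfl
    · exact ⟨g, Or.inr ⟨rfl, hh2⟩⟩
    · exact ⟨g', Or.inr ⟨rfl, hh2⟩⟩

/-- The finite data of a comparing window. -/
lemma rep_sig (hC : CompleteStatement C) (hL : L₀ C ≤ L) (he : EqWin (K.win L P)) :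
    K.Rep L P fun k => k < A C := by
  obtain ⟨hX, hY, e⟩ := K.win_eq hL P
  rw [e] at he
  obtain ⟨c, d⟩ := eqData hL hX hY he
  rcases Nat.lt_or_ge (hi L (K.pos L P 1)) (A C - 1) with h | h
  · exact rep_eq_sig_low hC d h
      ((rep_row hC (by omega) (hi L (K.pos L P 1 - 1))).mono fun k hk => Or.inr (Or.inl hk))
  · exact rep_eq_top hC d (le_antisymm d.hu h)

/-- The comparison and one bit of a number. -/
lemma rep_num (hC : CompleteStatement C) (hL : L₀ C ≤ L) (he : EqWin (K.win L P)) {k : ℕ}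
    (hk : A C ≤ k) : K.Rep L P fun m => m = 66 ∨ m = k := by
  obtain ⟨hX, hY, e⟩ := K.win_eq hL P
  rw [e] at he
  obtain ⟨c, d⟩ := eqData hL hX hY he
  exact rep_eq_num hC d hk
    ((rep_row hC (by omega) (((k - A C) / T C - 2) / 32)).mono fun m hm => Or.inr (Or.inl hm))

end Vale.Agent.P193.W4.Common.Minimal
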