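import Vale.Agent.P193.W4.Minimal.Occurs
import Vale.Agent.P193.W4.Common.Towers

/-!
P193, module W4 A, minimality: two chains moved against each other.

A finite box of tiles is determined by a single window of a high level and the folded states of
finitely many tiles. A window which occurs below another one is found in the second chain at a place
with the same counters, moved in the plane.
-/

noncomputable section

namespace Vale.Agent.P193.W4.Common.Minimal

variable {C : Cfg} (K K' : Chain C) {L : ℕ}

/-- A tile is the child of its parent. -/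
lemma Chain.tile_eq (hL : L₀ C ≤ L) (P : Z5) : K.tiles L P =
    childAt L (K.tiles (L + 1)) (K.up L P) (K.pos L P 0) (K.pos L P 1) (K.dig L P) := by
  refine ((K.parent L hL).eq P).trans (congrArg (childAt L _ _ _ _) (funext fun i => Fin.ext ?_))
  apply Int.ofNat_inj.1
  show ((Axis.red (P (zAx i) - K.off L (zAx i)) : Fin (base C.k)).val : ℤ) = _
  have hb : (0 : ℤ) < base C.k := by have := base_ge C.k; omega
  rw [Axis.red_val]
  exact (Int.toNat_of_nonneg (Int.emod_nonneg _ hb.ne')).symm

lemma Chain.pos_cast (P : Z5) (a : Fin 5) :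
    (K.pos L P a : ℤ) = (P a - K.off L a) % extent C L a :=
  Int.toNat_of_nonneg (Int.emod_nonneg _ (extent_pos L a).ne')

/-- The ancestor of an ancestor. -/
lemma Chain.anc_add : ∀ (d e L : ℕ) (P : Z5),
    K.anc L (d + e) P = K.anc (L + d) e (K.anc L d P)
  | 0, e, L, P => by simp [Chain.anc]
  | d + 1, e, L, P => by
    rw [show d + 1 + e = (d + e) + 1 by omega]
    show K.anc (L + 1) (d + e) (K.up L P) = _
    rw [Chain.anc_add d e, show L + 1 + d = L + (d + 1) by omega]
    rfl

lemma Chain.anc_succ (L d : ℕ) (P : Z5) : K.anc L (d + 1) P = K.up (L + d) (K.anc L d P) :=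
  K.anc_add d 1 L P

lemma Chain.anc_surj : ∀ (d L : ℕ) (R : Z5), ∃ P, K.anc L d P = R
  | 0, _, R => ⟨R, rfl⟩
  | d + 1, L, R => by
    obtain ⟨Q, hQ⟩ := Chain.anc_surj d (L + 1) R
    refine ⟨fun a => K.off L a + extent C L a * Q a, ?_⟩
    show K.anc (L + 1) d _ = R
    rw [← hQ]
    congr 1
    funext a
    simp only [Chain.up, add_sub_cancel_left]
    exact Int.mul_ediv_cancel_left _ (extent_pos L a).ne'

/-! ### Shifts -/

/-- The shifts of the levels from `L` to `n` agree with the offsets. -/
def Aligned (D : ℕ → Z5) (L n : ℕ) : Prop :=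
  ∀ i, L ≤ i → i < n → ∀ a, D i a = K'.off i a + extent C i a * D (i + 1) a - K.off i a

/-- The shift `d` levels below a given one. -/
def down : ℕ → ℕ → Z5 → Z5
  | _, 0, t => t
  | L, d + 1, t => fun a => K'.off L a + extent C L a * down (L + 1) d t a - K.off L a

/-- The shifts below a given one. -/
def shiftsFrom (n : ℕ) (t : Z5) : ℕ → Z5 := fun L => down K K' L (n - L) t

lemma shiftsFrom_self (n : ℕ) (t : Z5) : shiftsFrom K K' n t n = t := by
  simp [shiftsFrom, down]

lemma aligned_shiftsFrom (n : ℕ) (t : Z5) (L : ℕ) :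
    Aligned K K' (shiftsFrom K K' n t) L n := fun i _ hi a => by
  simp only [shiftsFrom]
  rw [show n - i = (n - (i + 1)) + 1 by omega]
  rfl

variable {K K'} {D : ℕ → Z5}

lemma Aligned.mono {n L' n' : ℕ} (h : Aligned K K' D L n) (h₁ : L ≤ L') (h₂ : n' ≤ n) :
    Aligned K K' D L' n' := fun i hi hi' => h i (by omega) (by omega)

lemma Aligned.sub {n : ℕ} (h : Aligned K K' D L n) (hn : L < n) (P : Z5) (a : Fin 5) :
    (P + D L) a - K'.off L a = (P a - K.off L a) + extent C L a * D (L + 1) a := by
  rw [Pi.add_apply, h L le_rfl hn a]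
  ring

lemma Aligned.up {n : ℕ} (h : Aligned K K' D L n) (hn : L < n) (P : Z5) :
    K'.up L (P + D L) = K.up L P + D (L + 1) := by
  funext a
  show ((P + D L) a - K'.off L a) / extent C L a =
    (P a - K.off L a) / extent C L a + D (L + 1) a
  rw [h.sub hn P a]
  exact Int.add_mul_ediv_left _ _ (extent_pos L a).ne'

lemma Aligned.pos {n : ℕ} (h : Aligned K K' D L n) (hn : L < n) (P : Z5) (a : Fin 5) :
    K'.pos L (P + D L) a = K.pos L P a := by
  simp only [Chain.pos, h.sub hn P a, Int.add_mul_emod_self_left]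

lemma Aligned.dig {n : ℕ} (h : Aligned K K' D L n) (hn : L < n) (P : Z5) :
    K'.dig L (P + D L) = K.dig L P := by
  funext i
  apply Fin.ext
  simp only [Chain.dig, h.sub hn P (zAx i), extent_zAx, Int.add_mul_emod_self_left]

lemma Aligned.anc : ∀ {d L : ℕ}, Aligned K K' D L (L + d) → ∀ P,
    K'.anc L d (P + D L) = K.anc L d P + D (L + d)
  | 0, _, _, _ => rfl
  | d + 1, L, h, P => by
    show K'.anc (L + 1) d (K'.up L (P + D L)) = K.anc (L + 1) d (K.up L P) + _
    rw [h.up (by omega) P,
      Aligned.anc (d := d) (L := L + 1) (h.mono (by omega) (by omega)),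
      show L + 1 + d = L + (d + 1) by omega]

/-! ### Folded states -/

/-- The tile and its translate have the same folded state. -/
def SEq (K K' : Chain C) (D : ℕ → Z5) (L : ℕ) (P : Z5) : Prop :=
  stateAt L (K.tiles L P) = stateAt L (K'.tiles L (P + D L))

lemma SEq.congr {D' : ℕ → Z5} {P P' : Z5} (hL : L₀ C ≤ L) (hP : ∀ i, P (zAx i) = P' (zAx i))
    (hD : ∀ i, D L (zAx i) = D' L (zAx i)) (h : SEq K K' D L P) : SEq K K' D' L P' := by
  refine ((K.valid L hL).plane_eq (P := P') (Q := P) fun i => (hP i).symm).1.trans (h.trans ?_)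
  refine ((K'.valid L hL).plane_eq fun i => ?_).1
  simp only [Pi.add_apply, hP i, hD i]

variable {em : ℕ → Option (List (Full C.k))} (hem : Emits C.R em)
include hem

lemma SEq.child {n : ℕ} (h : Aligned K K' D L n) (hn : L < n) (hL : L₀ C ≤ L) {P : Z5}
    (hs : SEq K K' D (L + 1) (K.up L P)) : SEq K K' D L P := by
  unfold SEq
  rw [K.tile_eq hL, K'.tile_eq hL, h.up hn, h.pos hn, h.pos hn, h.dig hn]
  unfold childAt
  rw [stateAt_child hem hL _ (t := K.tiles (L + 1) (K.up L P)) (fun j => ?_),
    stateAt_child hem hL _ (t := K'.tiles (L + 1) (K.up L P + D (L + 1))) (fun j => ?_), hs]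
  · show enc (L + 1) (quadAt _ _ self) j = _
    rw [((K'.valid (L + 1) (by omega)).edge _ 0).2.2.1]
  · show enc (L + 1) (quadAt _ _ self) j = _
    rw [((K.valid (L + 1) (by omega)).edge _ 0).2.2.1]

lemma SEq.of_anc : ∀ {d L : ℕ} {P : Z5}, Aligned K K' D L (L + d) → L₀ C ≤ L →
    SEq K K' D (L + d) (K.anc L d P) → SEq K K' D L P
  | 0, _, _, _, _, h => h
  | d + 1, L, P, hA, hL, h => by
    refine SEq.child hem hA (by omega) hL
      (SEq.of_anc (d := d) (hA.mono (by omega) (by omega)) (by omega) ?_)
    rw [show L + 1 + d = L + (d + 1) by omega]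
    exact h

omit hem

/-- Equal folded states hand down the same. -/
lemma handed {c c' : Z5 → St C} (hc : ValidTiling L c) (hc' : ValidTiling L c') (hL : L₀ C ≤ L)
    {P P' : Z5} (h : stateAt L (c P) = stateAt L (c' P')) :
    readout (claims L (c P)) = readout (claims L (c' P')) ∧ (c P).w = (c' P').w := by
  have h1 := congrArg W4.St.flags h
  have h2 := congrArg W4.St.hit h
  have h3 : wordAt L (c P) = wordAt L (c' P') := congrArg W4.St.word h
  have htop : (claims L (c P)).ex.top = (claims L (c' P')).ex.top := by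
    rw [← topLetter_wordAt, ← topLetter_wordAt, h3]
  have hon : (c P).fin.wOn = (c' P').fin.wOn := by
    unfold wordAt at h3
    revert h3
    cases (c P).fin.wOn <;> cases (c' P').fin.wOn <;> simp
  refine ⟨?_, ?_⟩
  · simp only [stateAt] at h1 h2
    generalize hr : readout (claims L (c P)) = r at h1 h2
    generalize hr' : readout (claims L (c' P')) = r' at h1 h2
    have e3 : r.wOn = r'.wOn := by rw [← hr, ← hr']; exact hon
    have e4 : r.top = r'.top := by rw [← hr, ← hr']; exact htop
    cases r; cases r'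
    simp only at h1 h2 e3 e4
    subst h1 h2 e3 e4
    rfl
  · cases ho : (c P).fin.wOn
    · funext r
      rw [(hc.wordNum P).off ho r, (hc'.wordNum P').off (hon ▸ ho) r]
    · unfold wordAt at h3
      rw [if_pos ho, if_pos (hon ▸ ho), Option.some.injEq] at h3
      have hb : ∀ {c : Z5 → St C}, ValidTiling L c → ∀ P r,
          (c P).w r < 2 ^ (L₀ C + (L - L₀ C)) := fun {c} hc P r => by
        rw [Nat.add_sub_cancel' hL]
        have h := (hc P).1.1 self
        rw [(hc.edge P 0).2.2.1] at h
        exact h.1.2.2.2 r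
      rw [← ((hc.wordNum P).numOK hL).wordNum_numWord (hb hc P), h3,
        ((hc'.wordNum P').numOK hL).wordNum_numWord (hb hc' P')]

/-! ### Boxes -/

lemma cover_axis {E t Q : ℤ} (hE : 0 < E) (h₁ : E * Q - 1 ≤ t) (h₂ : t ≤ E * (Q + 1)) :
    (t / E < Q → t % E = E - 1 ∧ t / E = Q - 1) ∧ (Q < t / E → t % E = 0 ∧ t / E = Q + 1) := by
  have e := Int.mul_ediv_add_emod t E
  have h0 := Int.emod_nonneg t hE.ne'
  have h3 := Int.emod_lt_of_pos t hE
  constructor <;> intro h
  · have hq : t / E = Q - 1 := by
      by_contra hne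
      have : E * (t / E) ≤ E * (Q - 2) := mul_le_mul_of_nonneg_left (by omega) hE.le
      rw [mul_sub] at this
      omega
    rw [hq, mul_sub, mul_one] at e
    exact ⟨by omega, hq⟩
  · have hq : t / E = Q + 1 := by
      by_contra hne
      have : E * (Q + 2) ≤ E * (t / E) := mul_le_mul_of_nonneg_left (by omega) hE.le
      rw [mul_add] at this
      rw [mul_add, mul_one] at h₂
      omega
    rw [hq] at e
    exact ⟨by omega, hq⟩

/-- A window determines the children of its parents and those just around them. -/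
theorem tile_cover {n : ℕ} (hA : Aligned K K' D L n) (hn : L < n) (hL : L₀ C ≤ L) (Q P : Z5)
    (hlo : ∀ a, extent C L a * Q a - 1 ≤ P a - K.off L a)
    (hhi : ∀ a, P a - K.off L a ≤ extent C L a * (Q a + 1))
    (hs : SEq K K' D (L + 1) (K.up L P))
    (hq : K'.win (L + 1) (Q + D (L + 1)) = K.win (L + 1) Q) :
    K.tiles L P = K'.tiles L (P + D L) := by
  have hax := fun a => cover_axis (extent_pos L a) (hlo a) (hhi a)
  have hposlt : ∀ a, (K.pos L P a : ℤ) < extent C L a := fun a => by
    rw [K.pos_cast]; exact Int.emod_lt_of_pos _ (extent_pos L a)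
  rw [K.tile_eq hL, K'.tile_eq hL, hA.up hn, hA.pos hn, hA.pos hn, hA.dig hn]
  obtain ⟨hr, hw⟩ := handed (K.valid (L + 1) (by omega)) (K'.valid (L + 1) (by omega)) (by omega) hs
  have hself : ∀ (c : Z5 → St C), ValidTiling (L + 1) c → ∀ p j,
      quadBits (L + 1) (quadAt c p) j self = enc (L + 1) (c p) j := fun c hc p j => by
    show enc (L + 1) (quadAt c p self) j = _
    rw [(hc.edge p 0).2.2.1]
  unfold childAt
  refine child_shown hL _ (fun a => decide (K.up L P a < Q a)) (fun a => decide (Q a < K.up L P a))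
    _ ?_ ?_ (fun h => ?_) (fun h => ?_) (fun i h => ?_) (fun h => ?_) (fun h => ?_) (fun i h => ?_)
    ?_ (fun r => ?_) fun k g hd he => ?_
  · exact Int.ofNat_lt.1 (hposlt 0)
  · exact Int.ofNat_lt.1 (hposlt 1)
  · have e := ((hax 0).1 (of_decide_eq_true h)).1
    rw [← K.pos_cast, show extent C L 0 = (H L : ℤ) from rfl] at e
    omega
  · have e := ((hax 1).1 (of_decide_eq_true h)).1
    rw [← K.pos_cast, show extent C L 1 = (H L : ℤ) from rfl] at e
    omega
  · have e := ((hax (zAx i)).1 (of_decide_eq_true h)).1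
    rw [extent_zAx] at e
    have := base_ge C.k
    simp only [Chain.dig]
    omega
  · have e := ((hax 0).2 (of_decide_eq_true h)).1
    rw [← K.pos_cast] at e
    omega
  · have e := ((hax 1).2 (of_decide_eq_true h)).1
    rw [← K.pos_cast] at e
    omega
  · have e := ((hax (zAx i)).2 (of_decide_eq_true h)).1
    rw [extent_zAx] at e
    simp only [Chain.dig]
    omega
  · rw [pfOf_enc (hself _ (K.valid (L + 1) (by omega)) _),
      pfOf_enc (hself _ (K'.valid (L + 1) (by omega)) _), hr]
  · rw [wOf_enc (hself _ (K.valid (L + 1) (by omega)) _) (by omega),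
      wOf_enc (hself _ (K'.valid (L + 1) (by omega)) _) (by omega), hw]
  · show enc (L + 1) (K.tiles (L + 1) (K.up L P - dir g)) k =
      enc (L + 1) (K'.tiles (L + 1) (K.up L P + D (L + 1) - dir g)) k
    let g' : Guest := fun a => decide (K.up L P a - dir g a < Q a)
    have e : ∀ a, K.up L P a - dir g a = Q a - dir g' a := fun a => by
      simp only [g', dir]
      rcases lt_trichotomy (K.up L P a) (Q a) with h | h | h
      · have h' : K.up L P a = Q a - 1 := ((hax a).1 h).2
        have := hd a (decide_eq_true h)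
        simp only [this, h', Bool.false_eq_true, if_false, sub_zero]
        simp
      · rcases Bool.eq_false_or_eq_true (g a) with hg | hg <;> simp [hg, h]
      · have h' : K.up L P a = Q a + 1 := ((hax a).2 h).2
        have := he a (decide_eq_true h)
        simp only [this, h', if_true]
        simp
    have h := congrFun hq g'
    simp only [Chain.win, quadAt] at h
    have e1 : K.up L P - dir g = Q - dir g' := funext e
    have e2 : K.up L P + D (L + 1) - dir g = Q + D (L + 1) - dir g' := by
      funext a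
      have := e a
      simp only [Pi.sub_apply, Pi.add_apply]
      omega
    rw [e1, e2, h]

lemma ediv_sub_le {E t₁ t₂ w : ℤ} (hE : 2 ≤ E) (hw : 1 ≤ w) (h : t₂ - t₁ ≤ w) :
    t₂ / E - t₁ / E ≤ w := by
  have e₁ := Int.mul_ediv_add_emod t₁ E
  have e₂ := Int.mul_ediv_add_emod t₂ E
  have a := Int.emod_nonneg t₂ (show E ≠ 0 by omega)
  have b := Int.emod_lt_of_pos t₁ (show (0 : ℤ) < E by omega)
  by_contra hne
  have : E * (w + 1) ≤ E * (t₂ / E - t₁ / E) := mul_le_mul_of_nonneg_left (by omega) (by omega)
  have : (2 : ℤ) * w ≤ E * w := mul_le_mul_of_nonneg_right hE (by omega)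
  rw [mul_add, mul_sub, mul_one] at *
  omega

/-- A box of tiles is determined by one window and finitely many folded states. -/
theorem determined (K : Chain C) : ∀ (W L : ℕ), L₀ C ≤ L → ∀ lo hi : Z5,
    (∀ a, hi a - lo a ≤ W) → ∃ (m : ℕ) (Q : Z5) (S : Finset (ℕ × Z5)), L < m ∧
      (∀ p ∈ S, L₀ C ≤ p.1 ∧ p.1 ≤ m) ∧
      ∀ (K' : Chain C) (D : ℕ → Z5), Aligned K K' D L m → (∀ p ∈ S, SEq K K' D p.1 p.2) →
        K'.win m (Q + D m) = K.win m Q → ∀ P : Z5, lo ≤ P → P ≤ hi →
          K.tiles L P = K'.tiles L (P + D L) := by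
  intro W
  induction W with
  | zero =>
    intro L hL lo hi h
    exact base L hL lo hi fun a => (h a).trans (by norm_num)
  | succ W ih =>
    intro L hL lo hi h
    by_cases hW : W ≤ 1
    · exact base L hL lo hi fun a => (h a).trans (by omega)
    let A : Z5 := fun a => (lo a + 1 - K.off L a) / extent C L a
    let B : Z5 := fun a => max (A a) ((hi a - 1 - K.off L a) / extent C L a)
    obtain ⟨m, Q, S, hm, hS, hdet⟩ := ih (L + 1) (by omega) (fun a => A a - 1) B fun a => by
      simp only [B]
      by_cases hle : (hi a - 1 - K.off L a) / extent C L a ≤ A a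
      · rw [max_eq_left hle]; omega
      · rw [max_eq_right (le_of_not_ge hle)]
        have he : 2 ≤ extent C L a := by
          have := base_ge C.k
          have := cuts_lt (C := C) hL
          fin_cases a <;> simp [extent] <;> omega
        have h4 := h a
        push_cast at h4
        have := ediv_sub_le (t₁ := lo a + 1 - K.off L a) (t₂ := hi a - 1 - K.off L a)
          (w := (W : ℤ) - 1) he (by omega) (by omega)
        simp only [A]
        omega
    refine ⟨m, Q, S ∪ (Finset.Icc lo hi).image (fun P => (L + 1, K.up L P)), by omega,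
      fun p hp => ?_, fun K' D hA hs hq P h₁ h₂ => ?_⟩
    · rcases Finset.mem_union.1 hp with hp | hp
      · exact hS p hp
      · obtain ⟨P, -, rfl⟩ := Finset.mem_image.1 hp
        exact ⟨by simp only; omega, by simp only; omega⟩
    · let R : Z5 := fun a => min (max (K.up L P a) (A a)) (B a)
      have hR : ∀ a, A a ≤ R a ∧ R a ≤ B a := fun a =>
        ⟨le_min (le_max_right _ _) (le_max_left _ _), min_le_right _ _⟩
      have hwin : K'.win (L + 1) (R + D (L + 1)) = K.win (L + 1) R := by
        funext g
        have hd : ∀ a, 0 ≤ dir g a ∧ dir g a ≤ 1 := fun a => by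
          unfold dir; split_ifs <;> omega
        have := hdet K' D (hA.mono (by omega) le_rfl)
          (fun p hp => hs p (Finset.mem_union_left _ hp)) hq (R - dir g)
          (fun a => by
            have := hR a; have := hd a
            simp only [Pi.sub_apply]; omega)
          (fun a => by
            have := hR a; have := hd a
            simp only [Pi.sub_apply]; omega)
        show K'.tiles (L + 1) (R + D (L + 1) - dir g) = K.tiles (L + 1) (R - dir g)
        rw [this]
        congr 1
        abel
      refine tile_cover hA (by omega) hL R P (fun a => ?_) (fun a => ?_)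
        (hs _ (Finset.mem_union_right _ (Finset.mem_image.2
          ⟨P, Finset.mem_Icc.2 ⟨h₁, h₂⟩, rfl⟩))) hwin
      all_goals
        have hE := extent_pos (C := C) L a
        have hA1 : extent C L a * A a ≤ lo a + 1 - K.off L a := Int.mul_ediv_self_le hE.ne'
        have hB1 : hi a - 1 - K.off L a < extent C L a * ((hi a - 1 - K.off L a) / extent C L a + 1) := by
          rw [mul_add, mul_one]
          have := Int.mul_ediv_add_emod (hi a - 1 - K.off L a) (extent C L a)
          have := Int.emod_lt_of_pos (hi a - 1 - K.off L a) hE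
          omega
        have hU1 : extent C L a * K.up L P a ≤ P a - K.off L a := Int.mul_ediv_self_le hE.ne'
        have hU2 : P a - K.off L a < extent C L a * (K.up L P a + 1) := by
          rw [mul_add, mul_one]
          have := Int.mul_ediv_add_emod (P a - K.off L a) (extent C L a)
          have := Int.emod_lt_of_pos (P a - K.off L a) hE
          simp only [Chain.up]
          omega
        have h1a : lo a ≤ P a := h₁ a
        have h2a : P a ≤ hi a := h₂ a
        have hBA : A a ≤ B a := le_max_left _ _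
        have hBmax : extent C L a * ((hi a - 1 - K.off L a) / extent C L a + 1) ≤
            extent C L a * (B a + 1) :=
          mul_le_mul_of_nonneg_left (by simp only [B]; omega) hE.le
        simp only [R]
        rcases le_total (K.up L P a) (A a) with hu | hu
        · rw [max_eq_right hu, min_eq_left hBA]
          have := mul_le_mul_of_nonneg_left hu hE.le
          simp only [mul_add, mul_one] at hU2 ⊢
          omega
        · rw [max_eq_left hu]
          rcases le_total (K.up L P a) (B a) with hv | hv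
          · rw [min_eq_left hv]
            omega
          · rw [min_eq_right hv]
            have := mul_le_mul_of_nonneg_left hv hE.le
            omega
where
  base (L : ℕ) (hL : L₀ C ≤ L) (lo hi : Z5) (h : ∀ a, hi a - lo a ≤ 2) :
      ∃ (m : ℕ) (Q : Z5) (S : Finset (ℕ × Z5)), L < m ∧ (∀ p ∈ S, L₀ C ≤ p.1 ∧ p.1 ≤ m) ∧
        ∀ (K' : Chain C) (D : ℕ → Z5), Aligned K K' D L m → (∀ p ∈ S, SEq K K' D p.1 p.2) →
          K'.win m (Q + D m) = K.win m Q → ∀ P : Z5, lo ≤ P → P ≤ hi →
            K.tiles L P = K'.tiles L (P + D L) := by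
    let Q : Z5 := fun a => (lo a + 1 - K.off L a) / extent C L a
    refine ⟨L + 1, Q, (Finset.Icc lo hi).image (fun P => (L + 1, K.up L P)), by omega,
      fun p hp => ?_, fun K' D hA hs hq P h₁ h₂ => ?_⟩
    · obtain ⟨P, -, rfl⟩ := Finset.mem_image.1 hp
      exact ⟨by simp only; omega, le_rfl⟩
    · refine tile_cover hA (by omega) hL Q P (fun a => ?_) (fun a => ?_)
        (hs _ (Finset.mem_image.2 ⟨P, Finset.mem_Icc.2 ⟨h₁, h₂⟩, rfl⟩)) hq
      all_goals
        have hE := extent_pos (C := C) L a
        have := Int.mul_ediv_add_emod (lo a + 1 - K.off L a) (extent C L a)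
        have := Int.emod_nonneg (lo a + 1 - K.off L a) hE.ne'
        have := Int.emod_lt_of_pos (lo a + 1 - K.off L a) hE
        have := h a
        have h1a : lo a ≤ P a := h₁ a
        have h2a : P a ≤ hi a := h₂ a
        simp only [Q, mul_add, mul_one]
        omega

/-- What occurs below a window of the second chain is seen there, with the same counters up to the
shift. -/
theorem find :
    ∀ {d L : ℕ} {Q : Z5} {w : Win (St C)}, L₀ C ≤ L → Aligned K K' D L (L + d) →
      K.Below L d Q (K'.win (L + d) (K.anc L d Q + D (L + d))) w →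
      ∃ R, (∀ i, R (zAx i) = Q (zAx i) + D L (zAx i)) ∧ K'.win L R = w
  | 0, L, Q, w, _, _, h => ⟨Q + D L, fun _ => rfl, h⟩
  | d + 1, L, Q, w, hL, hal, ⟨S, hS, X, Y, hX, hY, hw⟩ => by
    obtain ⟨R, hR, hRw⟩ := find (d := d) (L := L + 1) (Q := K.up L Q) (w := S) (by omega)
      (hal.mono (by omega) (by omega)) (by
        rw [show L + 1 + d = L + (d + 1) by omega]
        exact hS)
    refine ⟨place L (K'.off L) R X Y (K.dig L Q), fun i => ?_, ?_⟩
    · have hp : place L (K'.off L) R X Y (K.dig L Q) (zAx i) =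
          K'.off L (zAx i) + (base C.k : ℤ) * R (zAx i) + ((K.dig L Q i).val : ℤ) := by
        fin_cases i <;> rfl
      have hb : (0 : ℤ) < base C.k := by have := base_ge C.k; omega
      rw [hp, hR i, hal L le_rfl (by omega) (zAx i), extent_zAx]
      simp only [Chain.up, Chain.dig, extent_zAx,
        Int.toNat_of_nonneg (Int.emod_nonneg _ hb.ne')]
      have := Int.mul_ediv_add_emod (Q (zAx i) - K.off L (zAx i)) (base C.k : ℤ)
      rw [mul_add]
      omega
    · show quadAt (K'.tiles L) _ = w
      rw [quadAt_place hL (K'.parent L hL) _ hX hY, ← hw, ← hRw]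
      rfl

/-- The shifts of the counters only depend on those of a higher level. -/
lemma Aligned.counters {D' : ℕ → Z5} : ∀ {d L : ℕ}, Aligned K K' D L (L + d) →
    Aligned K K' D' L (L + d) → (∀ i, D (L + d) (zAx i) = D' (L + d) (zAx i)) →
    ∀ j, j ≤ d → ∀ i, D (L + j) (zAx i) = D' (L + j) (zAx i)
  | d, L, h, h', ht, j, hj, i => by
    obtain ⟨e, rfl⟩ : ∃ e, d = j + e := ⟨d - j, by omega⟩
    clear hj
    induction e generalizing j with
    | zero => exact ht i
    | succ e ih =>
      have := ih (j + 1) (h.mono le_rfl (by omega)) (h'.mono le_rfl (by omega))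
        (by rw [show L + (j + 1 + e) = L + (j + (e + 1)) by omega]; exact ht) 
      rw [h (L + j) (by omega) (by omega), h' (L + j) (by omega) (by omega),
        show L + j + 1 = L + (j + 1) by omega, this]

include hem in
/-- A box of the first chain is seen in the second one moved in the plane. -/
theorem move (hC : CompleteStatement C) (K : Chain C) (lo hi : Z5) : ∃ (n : ℕ) (S : Finset Z5),
    L₀ C < n ∧ ∀ N, n ≤ N → ∀ (K' : Chain C) (D : ℕ → Z5), Aligned K K' D (L₀ C) N →
      (∀ P ∈ S, SEq K K' D N (K.anc (L₀ C) (N - L₀ C) P)) →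
      ∃ t : Z5, (∀ i, t (zAx i) = D (L₀ C) (zAx i)) ∧ ∀ P : Z5, lo ≤ P → P ≤ hi →
        K.tiles (L₀ C) P = K'.tiles (L₀ C) (P + t) := by
  classical
  obtain ⟨W, hW⟩ : ∃ W : ℕ, ∀ a, hi a - lo a ≤ W :=
    ⟨Finset.univ.sup fun a => (hi a - lo a).toNat, fun a => by
      have := Finset.le_sup (f := fun a => (hi a - lo a).toNat) (Finset.mem_univ a)
      omega⟩
  obtain ⟨m, Q, S, hm, hS, hdet⟩ := determined K W (L₀ C) le_rfl lo hi hW
  obtain ⟨d, hocc⟩ := occ_real (K := K) hC (show L₀ C ≤ m by omega) (P := Q)
  set A := K.anc m d Q with hA'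
  choose f hf using fun p : ℕ × Z5 => K.anc_surj (p.1 - L₀ C) (L₀ C) p.2
  refine ⟨m + d + 1, S.image f ∪ Finset.univ.image
    (fun δ : Guest => f (m + d + 1, K.up (m + d) A - dir δ)), by omega, fun N hN K' D hal hs => ?_⟩
  have key : ∀ p : ℕ × Z5, L₀ C ≤ p.1 → p.1 ≤ N →
      SEq K K' D N (K.anc (L₀ C) (N - L₀ C) (f p)) → SEq K K' D p.1 p.2 := fun p h1 h2 h => by
    refine SEq.of_anc hem (d := N - p.1) (hal.mono h1 (by omega)) h1 ?_
    rw [show p.1 + (N - p.1) = N by omega]
    have := K.anc_add (p.1 - L₀ C) (N - p.1) (L₀ C) (f p)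
    rw [hf p, show L₀ C + (p.1 - L₀ C) = p.1 by omega,
      show p.1 - L₀ C + (N - p.1) = N - L₀ C by omega] at this
    rwa [← this]
  have hgood : K.Good (m + d) A (K'.win (m + d) (A + D (m + d))) := by
    have halp : Aligned K K' D (m + d) N := hal.mono (by omega) le_rfl
    refine ⟨K'.valid _ (by omega) _, ?_⟩
    rw [(K.win_eq (by omega : L₀ C ≤ m + d) A).2.2,
      (K'.win_eq (by omega : L₀ C ≤ m + d) (A + D (m + d))).2.2, halp.up (by omega),
      halp.dig (by omega)]
    refine sameCtx_window (fun δ δ' hδ => ?_) _ _ _ _ _ _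
    have hse : SEq K K' D (m + d + 1) (K.up (m + d) A - dir δ) :=
      key (m + d + 1, K.up (m + d) A - dir δ) (by simp only; omega) (by simp only; omega)
        (hs _ (Finset.mem_union_right _ (Finset.mem_image.2 ⟨δ, Finset.mem_univ _, rfl⟩)))
    have hse' : stateAt (m + d + 1) (K.tiles (m + d + 1) (K.up (m + d) A - dir δ)) =
        stateAt (m + d + 1) (K'.tiles (m + d + 1) (K.up (m + d) A + D (m + d + 1) - dir δ')) := by
      refine hse.trans (((K'.valid _ (by omega)).plane_eq fun i => ?_).1)
      have := hδ i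
      simp only [Pi.add_apply, Pi.sub_apply, dir, this]
      ring
    obtain ⟨hr, hw⟩ := handed (K.valid _ (by omega)) (K'.valid _ (by omega)) (by omega) hse'
    refine ⟨?_, fun r => ?_⟩
    · rw [pfOf_enc (t := K.tiles (m + d + 1) (K.up (m + d) A - dir δ))
          (fun j => guestBits_own δ _ j),
        pfOf_enc (t := K'.tiles (m + d + 1) (K.up (m + d) A + D (m + d + 1) - dir δ'))
          (fun j => guestBits_own δ' _ j), hr]
    · rw [wOf_enc (t := K.tiles (m + d + 1) (K.up (m + d) A - dir δ)) (L' := m + d + 1)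
          (fun j => guestBits_own δ _ j) (by omega),
        wOf_enc (t := K'.tiles (m + d + 1) (K.up (m + d) A + D (m + d + 1) - dir δ'))
          (L' := m + d + 1) (fun j => guestBits_own δ' _ j) (by omega), hw]
  obtain ⟨w, hb, rfl⟩ := hocc _ hgood
  obtain ⟨R, hR, hRw⟩ := find (d := d) (L := m) (by omega) (hal.mono (by omega) (by omega)) hb
  let D' := shiftsFrom K K' m (R - Q)
  have hal' : Aligned K K' D' (L₀ C) m := aligned_shiftsFrom K K' m (R - Q) _
  have hz : ∀ L', L₀ C ≤ L' → L' ≤ m → ∀ i, D L' (zAx i) = D' L' (zAx i) := fun L' h1 h2 i => by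
    have := Aligned.counters (d := m - L₀ C) (L := L₀ C) (D := D) (D' := D')
      (hal.mono le_rfl (by omega)) (hal'.mono le_rfl (by omega)) (fun i => by
        rw [show L₀ C + (m - L₀ C) = m by omega]
        simp only [D', shiftsFrom_self, Pi.sub_apply, hR i]
        ring) (L' - L₀ C) (by omega) i
    rwa [show L₀ C + (L' - L₀ C) = L' by omega] at this
  refine ⟨D' (L₀ C), fun i => (hz _ le_rfl (by omega) i).symm, hdet K' D' hal' (fun p hp => ?_) ?_⟩
  · exact (key p (hS p hp).1 (by have := (hS p hp).2; omega)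
      (hs _ (Finset.mem_union_left _ (Finset.mem_image.2 ⟨p, hp, rfl⟩)))).congr (hS p hp).1
        (fun _ => rfl) fun i => hz _ (hS p hp).1 (hS p hp).2 i
  · simp only [D', shiftsFrom_self, add_sub_cancel, hRw]

end Vale.Agent.P193.W4.Common.Minimal
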